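import Vale.Agent.Lib.P226.Moments

/-!
Per-cell estimates `‖z(A)‖² ≤ c γ(A)`: with `c = 81/200` always, and with `c = 9/(8π)` when
`γ(A) ≤ 1/7` or `γ(A) ≥ 4/9`.
-/

open MeasureTheory ProbabilityTheory Real Set Filter
open scoped RealInnerProductSpace ENNReal

namespace Vale.Agent.Lib.P226

lemma upP_le_second (u : ℝ) (h0 : (53 / 50 : ℝ) ≤ u) (h1 : u ≤ 17 / 10) : upP u ≤ 79 / 1000 := by
  have hx : 0 ≤ u - 53 / 50 := by linarith
  have hy : 0 ≤ 17 / 10 - u := by linarith
  generalize hX : u - 53 / 50 = x at hx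
  generalize hY : 17 / 10 - u = y at hy
  have hexpr : (79 / 1000 : ℝ) - upP u =
      (1623326448145617535105967/96845406386975145984000000) * x ^ 0 * y ^ 11 +
      (132857739299694069386479393/19369081277395029196800000) * x ^ 1 * y ^ 10 +
      (53041788038421528093250957/774763251095801167872000) * x ^ 2 * y ^ 9 +
      (15843656620487020786347913/51650883406386744524800) * x ^ 3 * y ^ 8 +
      (4166194224791988659862997/5165088340638674452480) * x ^ 4 * y ^ 7 +
      (1014125357401760475953713/737869762948382064640) * x ^ 5 * y ^ 6 +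
      (233065445187571750968157/147573952589676412928) * x ^ 6 * y ^ 5 +
      (1271356813457696675539825/1033017668127734890496) * x ^ 7 * y ^ 4 +
      (1309120683876833548804625/2066035336255469780992) * x ^ 8 * y ^ 3 +
      (1242832953588651711720625/6198106008766409342976) * x ^ 9 * y ^ 2 +
      (203176836407455357148125/6198106008766409342976) * x ^ 10 * y ^ 1 +
      (9778029844723634884375/6198106008766409342976) * x ^ 11 * y ^ 0 := by
    subst hX hY
    unfold upP upE upB
    ring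
  have hnn : 0 ≤
      (1623326448145617535105967/96845406386975145984000000) * x ^ 0 * y ^ 11 +
      (132857739299694069386479393/19369081277395029196800000) * x ^ 1 * y ^ 10 +
      (53041788038421528093250957/774763251095801167872000) * x ^ 2 * y ^ 9 +
      (15843656620487020786347913/51650883406386744524800) * x ^ 3 * y ^ 8 +
      (4166194224791988659862997/5165088340638674452480) * x ^ 4 * y ^ 7 +
      (1014125357401760475953713/737869762948382064640) * x ^ 5 * y ^ 6 +
      (233065445187571750968157/147573952589676412928) * x ^ 6 * y ^ 5 +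
      (1271356813457696675539825/1033017668127734890496) * x ^ 7 * y ^ 4 +
      (1309120683876833548804625/2066035336255469780992) * x ^ 8 * y ^ 3 +
      (1242832953588651711720625/6198106008766409342976) * x ^ 9 * y ^ 2 +
      (203176836407455357148125/6198106008766409342976) * x ^ 10 * y ^ 1 +
      (9778029844723634884375/6198106008766409342976) * x ^ 11 * y ^ 0 := by positivity
  linarith

lemma psi_antitone {u v : ℝ} (h : u ≤ v) : psi v ≤ psi u := by
  unfold psi
  apply integral_mono (integrable_max_sub v) (integrable_max_sub u)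
  intro y
  exact max_le_max (by linarith) le_rfl

lemma exp_second_tail : rexp (-(361 / 100) / 2 - 1) ≤ 79 / 1000 := by
  have he := Real.exp_one_gt_d9
  have h3 : rexp (1 + 1 + 0.805) = rexp 1 * rexp 1 * rexp 0.805 := by
    rw [Real.exp_add, Real.exp_add]
  have h4 : (1.805 : ℝ) ≤ rexp 0.805 := by
    have := Real.add_one_le_exp (0.805 : ℝ)
    linarith
  have h5 : (1000 / 79 : ℝ) ≤ rexp (1 + 1 + 0.805) := by
    rw [h3]
    have hp : (0 : ℝ) < rexp 1 := exp_pos _
    have : (2.7182818283 : ℝ) * 2.7182818283 ≤ rexp 1 * rexp 1 := by nlinarith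
    have : (2.7182818283 : ℝ) * 2.7182818283 * 1.805 ≤ rexp 1 * rexp 1 * rexp 0.805 := by
      apply mul_le_mul this h4 (by norm_num) (by positivity)
    have h7 : (1000 / 79 : ℝ) ≤ (2.7182818283 : ℝ) * 2.7182818283 * 1.805 := by norm_num
    linarith
  have h6 : rexp (-(361 / 100) / 2 - 1) = (rexp (1 + 1 + 0.805))⁻¹ := by
    rw [← Real.exp_neg]
    congr 1
    norm_num
  rw [h6]
  have hpos : (0 : ℝ) < 1000 / 79 := by norm_num
  calc (rexp (1 + 1 + 0.805))⁻¹ ≤ (1000 / 79 : ℝ)⁻¹ := inv_anti₀ hpos h5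
    _ = 79 / 1000 := by norm_num

/-- `u ψ(u) ≤ 0.079` for `u ≥ 1.06`. -/
lemma mul_psi_le_second (u : ℝ) (hu : 53 / 50 ≤ u) : u * psi u ≤ 79 / 1000 := by
  have hu0 : 0 < u := by linarith
  by_cases h : u ≤ 17 / 10
  · exact (mul_psi_le_upP u hu0.le).trans (upP_le_second u hu h)
  by_cases h2 : u ≤ 19 / 10
  · have h' : 17 / 10 ≤ u := le_of_lt (not_le.mp h)
    have h3 := mul_psi_le_upP (17 / 10) (by norm_num)
    have h4 : psi u ≤ psi (17 / 10) := psi_antitone h'
    have h5 : upP (17 / 10) ≤ (17 / 10) * (79 / 1900) := by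
      unfold upP upE upB
      norm_num
    have h6 : psi (17 / 10) ≤ 79 / 1900 := by
      have : (17 / 10 : ℝ) * psi (17 / 10) ≤ (17 / 10) * (79 / 1900) := h3.trans h5
      exact le_of_mul_le_mul_left this (by norm_num)
    have h7 : psi u ≤ 79 / 1900 := h4.trans h6
    have hpsi0 : 0 ≤ psi u := by
      unfold psi
      exact integral_nonneg fun y => le_max_right _ _
    nlinarith
  · have h' : 19 / 10 < u := not_le.mp h2
    refine (psi_tail u hu0).trans (le_trans ?_ exp_second_tail)
    apply Real.exp_le_exp.mpr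
    nlinarith

lemma psi_zero : psi 0 = cG := by
  rw [psi_formula 0 le_rfl]
  simp

lemma one_div_two_pi_eq : cG ^ 2 = 1 / (2 * π) := by
  unfold cG
  rw [inv_pow, Real.sq_sqrt (by positivity)]
  simp

variable {E : Type*} [NormedAddCommGroup E] [InnerProductSpace ℝ E] [FiniteDimensional ℝ E]
  [MeasurableSpace E] [BorelSpace E]

/-- Every set: `‖z(A)‖² ≤ (81/200) γ(A)`. -/
lemma norm_sq_moment_le_all (A : Set E) (hA : MeasurableSet A) :
    ‖∫ x in A, x ∂(stdGaussian E)‖ ^ 2 ≤ (81 / 200) * ((stdGaussian E) A).toReal := by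
  have h2 := norm_sq_moment_le A hA (81 / 400)
  have h3 := integral_max_inner_le (∫ y in A, y ∂(stdGaussian E)) (81 / 400) (by norm_num)
  have h4 : (81 / 800) * ‖∫ y in A, y ∂(stdGaussian E)‖ ^ 2 / (81 / 400) =
      ‖∫ y in A, y ∂(stdGaussian E)‖ ^ 2 / 2 := by
    ring
  rw [h4] at h3
  linarith

/-- Every set: `‖z(A)‖ ≤ 1/√(2π)`. -/
lemma norm_moment_le_cG (A : Set E) (hA : MeasurableSet A) :
    ‖∫ x in A, x ∂(stdGaussian E)‖ ≤ cG := by
  set z := ∫ y in A, y ∂(stdGaussian E) with hz
  by_cases h0 : z = 0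
  · rw [h0, norm_zero]; exact cG_pos.le
  have hs : 0 < ‖z‖ := norm_pos_iff.mpr h0
  have h2 := norm_sq_moment_le A hA 0
  rw [← hz, integral_max_inner z h0 0, zero_div, psi_zero, zero_mul, zero_add] at h2
  have h3 : ‖z‖ * ‖z‖ ≤ ‖z‖ * cG := by nlinarith
  exact le_of_mul_le_mul_left h3 hs

lemma psi_at_first : psi (53 / 50) ≤ 149 / 2000 := by
  have h3 := mul_psi_le_upP (53 / 50) (by norm_num)
  have h5 : upP (53 / 50) ≤ (53 / 50) * (149 / 2000) := by
    unfold upP upE upB
    norm_num
  exact le_of_mul_le_mul_left (h3.trans h5) (by norm_num)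

/-- A set of measure at most `1/7` has a small moment. -/
lemma small_cell_norm (A : Set E) (hA : MeasurableSet A) (hp : ((stdGaussian E) A).toReal ≤ 1 / 7) :
    ‖∫ x in A, x ∂(stdGaussian E)‖ ≤ 113 / 500 := by
  set z := ∫ y in A, y ∂(stdGaussian E) with hz
  by_cases h0 : z = 0
  · rw [h0, norm_zero]; norm_num
  have hs : 0 < ‖z‖ := norm_pos_iff.mpr h0
  have h2 := norm_sq_moment_le A hA ((53 / 50) * ‖z‖)
  rw [← hz, integral_max_inner z h0 ((53 / 50) * ‖z‖)] at h2
  have h3 : (53 / 50) * ‖z‖ / ‖z‖ = 53 / 50 := by field_simp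
  rw [h3] at h2
  have h4 := psi_at_first
  have h5 : ‖z‖ * ‖z‖ ≤ ‖z‖ * ((53 / 50) * ((stdGaussian E) A).toReal + psi (53 / 50)) := by
    nlinarith
  have h6 := le_of_mul_le_mul_left h5 hs
  have : (53 / 50 : ℝ) * (1 / 7) + 149 / 2000 ≤ 113 / 500 := by norm_num
  linarith

/-- Cells of measure at most `1/7` satisfy the tangent bound with the propeller constant. -/
lemma small_cell_bound (A : Set E) (hA : MeasurableSet A)
    (hp : ((stdGaussian E) A).toReal ≤ 1 / 7) :
    ‖∫ x in A, x ∂(stdGaussian E)‖ ^ 2 ≤ 9 / (8 * π) * ((stdGaussian E) A).toReal := by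
  set z := ∫ y in A, y ∂(stdGaussian E) with hz
  have hp0 : 0 ≤ ((stdGaussian E) A).toReal := ENNReal.toReal_nonneg
  have hC : (288 / 805 : ℝ) ≤ 9 / (8 * π) := by
    rw [div_le_div_iff₀ (by norm_num) (by positivity)]
    have := Real.pi_lt_d4
    nlinarith
  have hmain : ‖z‖ ^ 2 ≤ 288 / 805 * ((stdGaussian E) A).toReal := by
    by_cases h0 : z = 0
    · rw [h0, norm_zero]
      have : (0 : ℝ) ≤ 288 / 805 * ((stdGaussian E) A).toReal := by positivity
      simpa using this
    have hs : 0 < ‖z‖ := norm_pos_iff.mpr h0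
    have hsm : ‖z‖ ≤ 113 / 500 := by
      rw [hz]; exact small_cell_norm A hA hp
    have h2 := norm_sq_moment_le A hA (6 / 25)
    rw [← hz, integral_max_inner z h0 (6 / 25)] at h2
    have hu : 53 / 50 ≤ (6 / 25 : ℝ) / ‖z‖ := by
      rw [le_div_iff₀ hs]
      nlinarith
    have h3 := mul_psi_le_second ((6 / 25 : ℝ) / ‖z‖) hu
    have h4 : ‖z‖ * psi ((6 / 25 : ℝ) / ‖z‖) * (6 / 25) ≤ 79 / 1000 * ‖z‖ ^ 2 := by
      have h5 : ‖z‖ * psi ((6 / 25 : ℝ) / ‖z‖) * (6 / 25) =
          ‖z‖ ^ 2 * ((6 / 25 : ℝ) / ‖z‖ * psi ((6 / 25 : ℝ) / ‖z‖)) := by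
        field_simp
      rw [h5]
      have h6 : 0 ≤ ‖z‖ ^ 2 := by positivity
      nlinarith [mul_le_mul_of_nonneg_left h3 h6]
    nlinarith
  have hmul : 288 / 805 * ((stdGaussian E) A).toReal ≤
      9 / (8 * π) * ((stdGaussian E) A).toReal := mul_le_mul_of_nonneg_right hC hp0
  exact hmain.trans hmul

/-- Cells of measure at least `4/9` satisfy the tangent bound with the propeller constant. -/
lemma big_cell_bound (A : Set E) (hA : MeasurableSet A)
    (hp : 4 / 9 ≤ ((stdGaussian E) A).toReal) :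
    ‖∫ x in A, x ∂(stdGaussian E)‖ ^ 2 ≤ 9 / (8 * π) * ((stdGaussian E) A).toReal := by
  have h1 := norm_moment_le_cG A hA
  have hc : 0 ≤ ‖∫ x in A, x ∂(stdGaussian E)‖ := norm_nonneg _
  have h2 : ‖∫ x in A, x ∂(stdGaussian E)‖ ^ 2 ≤ cG ^ 2 := by
    exact pow_le_pow_left₀ hc h1 2
  rw [one_div_two_pi_eq] at h2
  have hpi : 0 < π := Real.pi_pos
  have h3 : 1 / (2 * π) = 9 / (8 * π) * (4 / 9) := by
    field_simp
    norm_num
  have h4 : 9 / (8 * π) * (4 / 9) ≤ 9 / (8 * π) * ((stdGaussian E) A).toReal :=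
    mul_le_mul_of_nonneg_left hp (by positivity)
  linarith

/-- The interpolating bound: the conjectured constant plus a multiple of the total measure of the
cells whose measure lies strictly between `1/7` and `4/9`. -/
theorem sum_norm_sq_le_interp {k : ℕ} (A : Fin k → Set E) (hA : ∀ i, MeasurableSet (A i))
    (hd : Pairwise (Function.onFun Disjoint A)) :
    ∑ i, ‖∫ x in A i, x ∂(stdGaussian E)‖ ^ 2 ≤
      9 / (8 * π) + (81 / 200 - 9 / (8 * π)) *
        ∑ i, if (1 / 7 < ((stdGaussian E) (A i)).toReal ∧ ((stdGaussian E) (A i)).toReal < 4 / 9)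
          then ((stdGaussian E) (A i)).toReal else 0 := by
  have hterm : ∀ i, ‖∫ x in A i, x ∂(stdGaussian E)‖ ^ 2 ≤
      9 / (8 * π) * ((stdGaussian E) (A i)).toReal + (81 / 200 - 9 / (8 * π)) *
        (if (1 / 7 < ((stdGaussian E) (A i)).toReal ∧ ((stdGaussian E) (A i)).toReal < 4 / 9)
          then ((stdGaussian E) (A i)).toReal else 0) := by
    intro i
    split_ifs with h
    · have := norm_sq_moment_le_all (A i) (hA i)
      linarith
    · have : ((stdGaussian E) (A i)).toReal ≤ 1 / 7 ∨ 4 / 9 ≤ ((stdGaussian E) (A i)).toReal := by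
        by_contra hcon
        push_neg at hcon
        exact h hcon
      rcases this with h1 | h1
      · have := small_cell_bound (A i) (hA i) h1
        linarith
      · have := big_cell_bound (A i) (hA i) h1
        linarith
  have hsum := Finset.sum_le_sum fun i (_ : i ∈ Finset.univ) => hterm i
  rw [Finset.sum_add_distrib, ← Finset.mul_sum, ← Finset.mul_sum] at hsum
  have h1 := sum_measure_le_one A hA hd
  have hpi : 0 < π := Real.pi_pos
  have hC : 0 ≤ 9 / (8 * π) := by positivity
  have h2 : 9 / (8 * π) * ∑ i, ((stdGaussian E) (A i)).toReal ≤ 9 / (8 * π) := by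
    calc _ ≤ 9 / (8 * π) * 1 := mul_le_mul_of_nonneg_left h1 hC
      _ = _ := by ring
  linarith

/-- The propeller inequality for partitions with no cell of intermediate measure. -/
theorem sum_norm_sq_le_of_no_mid {k : ℕ} (A : Fin k → Set E) (hA : ∀ i, MeasurableSet (A i))
    (hd : Pairwise (Function.onFun Disjoint A))
    (hmid : ∀ i, ((stdGaussian E) (A i)).toReal ≤ 1 / 7 ∨ 4 / 9 ≤ ((stdGaussian E) (A i)).toReal) :
    ∑ i, ‖∫ x in A i, x ∂(stdGaussian E)‖ ^ 2 ≤ 9 / (8 * π) := by
  have h := sum_norm_sq_le_interp A hA hd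
  have h0 : (∑ i, if (1 / 7 < ((stdGaussian E) (A i)).toReal ∧
      ((stdGaussian E) (A i)).toReal < 4 / 9)
      then ((stdGaussian E) (A i)).toReal else 0) = 0 := by
    apply Finset.sum_eq_zero
    intro i _
    apply if_neg
    rintro ⟨h1, h2⟩
    rcases hmid i with h3 | h3
    · linarith
    · linarith
  rw [h0] at h
  simpa using h

end Vale.Agent.Lib.P226
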