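import Vale.Agent.Lib.P226.OneDim

/-!
Transfer of the one-dimensional estimate to Gaussian first moments of disjoint sets.
-/

open MeasureTheory ProbabilityTheory Real Set Filter
open scoped RealInnerProductSpace ENNReal

namespace Vale.Agent.Lib.P226

variable {E : Type*} [NormedAddCommGroup E] [InnerProductSpace ℝ E] [FiniteDimensional ℝ E]
  [MeasurableSpace E] [BorelSpace E]

lemma map_inner_unit (e : E) (he : ‖e‖ = 1) :
    (stdGaussian E).map (innerSL ℝ e) = gaussianReal 0 1 := by
  have h := IsGaussian.map_eq_gaussianReal (μ := stdGaussian E) (innerSL ℝ e)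
  rw [integral_strongDual_stdGaussian, variance_dual_stdGaussian] at h
  rw [h, innerSL_apply_norm, he]
  simp

lemma integrable_inner (z : E) : Integrable (fun x : E => ⟪z, x⟫) (stdGaussian E) := by
  exact (IsGaussian.integrable_id (μ := stdGaussian E)).const_inner z

lemma integrable_max_inner (z : E) (t : ℝ) :
    Integrable (fun x : E => max (⟪z, x⟫ - t) 0) (stdGaussian E) :=
  ((integrable_inner z).sub (integrable_const t)).sup (integrable_const 0)

lemma integral_max_inner (z : E) (hz : z ≠ 0) (t : ℝ) :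
    ∫ x, max (⟪z, x⟫ - t) 0 ∂(stdGaussian E) = ‖z‖ * psi (t / ‖z‖) := by
  have hs : 0 < ‖z‖ := norm_pos_iff.mpr hz
  set s := ‖z‖ with hs_def
  set e : E := (1 / s) • z with he_def
  have he : ‖e‖ = 1 := by
    rw [he_def, norm_smul, Real.norm_of_nonneg (by positivity), ← hs_def]
    field_simp
  have hzx : ∀ x : E, ⟪z, x⟫ = s * (innerSL ℝ e x) := by
    intro x
    rw [innerSL_apply_apply, he_def, inner_smul_left]
    simp only [conj_trivial]
    field_simp
  have hf : Measurable (fun y : ℝ => s * max (y - t / s) 0) := by fun_prop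
  calc ∫ x, max (⟪z, x⟫ - t) 0 ∂(stdGaussian E)
      = ∫ x, (fun y : ℝ => s * max (y - t / s) 0) (innerSL ℝ e x) ∂(stdGaussian E) := by
        apply integral_congr_ae
        refine Eventually.of_forall fun x => ?_
        simp only
        rw [hzx x]
        have : s * (innerSL ℝ e x) - t = s * (innerSL ℝ e x - t / s) := by
          field_simp
        rw [this]
        rcases le_total (innerSL ℝ e x - t / s) 0 with h | h
        · rw [max_eq_right h, max_eq_right (mul_nonpos_of_nonneg_of_nonpos hs.le h), mul_zero]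
        · rw [max_eq_left h, max_eq_left (mul_nonneg hs.le h)]
    _ = ∫ y, s * max (y - t / s) 0 ∂((stdGaussian E).map (innerSL ℝ e)) := by
        rw [integral_map (by fun_prop) hf.aestronglyMeasurable]
    _ = s * psi (t / s) := by
        rw [map_inner_unit e he, integral_const_mul]
        rfl

/-- The basic Gaussian tail estimate: for `t > 0`, `E (⟪z, x⟫ - t)₊ ≤ (81/800) ‖z‖² / t`. -/
lemma integral_max_inner_le (z : E) (t : ℝ) (ht : 0 < t) :
    ∫ x, max (⟪z, x⟫ - t) 0 ∂(stdGaussian E) ≤ (81 / 800) * ‖z‖ ^ 2 / t := by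
  by_cases hz : z = 0
  · subst hz
    simp [ht.le]
  · rw [integral_max_inner z hz t]
    have hs : 0 < ‖z‖ := norm_pos_iff.mpr hz
    have hu : 0 < t / ‖z‖ := div_pos ht hs
    have h := mul_psi_le (t / ‖z‖) hu
    rw [le_div_iff₀ ht]
    have : ‖z‖ * psi (t / ‖z‖) * t = ‖z‖ ^ 2 * (t / ‖z‖ * psi (t / ‖z‖)) := by
      field_simp
    rw [this]
    have h2 : 0 ≤ ‖z‖ ^ 2 := by positivity
    nlinarith [mul_le_mul_of_nonneg_left h h2]

/-- First moment inequality for a single measurable set: with `z = ∫_A x dγ`,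
`‖z‖² ≤ t γ(A) + E (⟪z, x⟫ - t)₊`. -/
lemma norm_sq_moment_le (A : Set E) (hA : MeasurableSet A) (t : ℝ) :
    ‖∫ x in A, x ∂(stdGaussian E)‖ ^ 2 ≤ t * ((stdGaussian E) A).toReal +
      ∫ x, max (⟪∫ y in A, y ∂(stdGaussian E), x⟫ - t) 0 ∂(stdGaussian E) := by
  set z := ∫ y in A, y ∂(stdGaussian E) with hz
  have hint : IntegrableOn (fun x : E => x) A (stdGaussian E) :=
    (IsGaussian.integrable_id (μ := stdGaussian E)).integrableOn
  have h1 : ‖z‖ ^ 2 = ∫ x in A, ⟪z, x⟫ ∂(stdGaussian E) := by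
    rw [integral_inner hint z, ← hz, real_inner_self_eq_norm_sq]
  have hmax := integrable_max_inner z t
  have h2 : ∫ x in A, ⟪z, x⟫ ∂(stdGaussian E) ≤
      ∫ x in A, (t + max (⟪z, x⟫ - t) 0) ∂(stdGaussian E) := by
    apply setIntegral_mono ((integrable_inner z).integrableOn)
      (((integrable_const t).add hmax).integrableOn)
    intro x
    have := le_max_left (⟪z, x⟫ - t) 0
    show ⟪z, x⟫ ≤ t + max (⟪z, x⟫ - t) 0
    linarith
  have h3 : ∫ x in A, (t + max (⟪z, x⟫ - t) 0) ∂(stdGaussian E) =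
      t * ((stdGaussian E) A).toReal + ∫ x in A, max (⟪z, x⟫ - t) 0 ∂(stdGaussian E) := by
    rw [integral_add (integrable_const t).integrableOn hmax.integrableOn]
    simp [smul_eq_mul, mul_comm, Measure.real]
  have h4 : ∫ x in A, max (⟪z, x⟫ - t) 0 ∂(stdGaussian E) ≤
      ∫ x, max (⟪z, x⟫ - t) 0 ∂(stdGaussian E) :=
    setIntegral_le_integral hmax (Eventually.of_forall fun x => le_max_right _ _)
  rw [h1]
  linarith

/-- Sum of measures of pairwise disjoint measurable sets is at most one. -/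
lemma sum_measure_le_one {k : ℕ} (A : Fin k → Set E) (hA : ∀ i, MeasurableSet (A i))
    (hd : Pairwise (Function.onFun Disjoint A)) :
    ∑ i, ((stdGaussian E) (A i)).toReal ≤ 1 := by
  have h1 : (stdGaussian E) (⋃ i, A i) = ∑ i, (stdGaussian E) (A i) := by
    rw [measure_iUnion hd hA, tsum_fintype]
  have h2 : ∑ i, ((stdGaussian E) (A i)).toReal = ((stdGaussian E) (⋃ i, A i)).toReal := by
    rw [h1, ENNReal.toReal_sum]
    intro i _
    exact measure_ne_top _ _
  rw [h2]
  exact ENNReal.toReal_le_of_le_ofReal (by norm_num) (by simpa using prob_le_one)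

/-- The dimension-free bound: for every finite family of pairwise disjoint measurable sets
`∑ ‖∫_{A i} x dγ‖² ≤ 81/200`. -/
theorem sum_norm_sq_moment_le {k : ℕ} (A : Fin k → Set E) (hA : ∀ i, MeasurableSet (A i))
    (hd : Pairwise (Function.onFun Disjoint A)) :
    ∑ i, ‖∫ x in A i, x ∂(stdGaussian E)‖ ^ 2 ≤ 81 / 200 := by
  set F := ∑ i, ‖∫ x in A i, x ∂(stdGaussian E)‖ ^ 2 with hF
  have ht : (0 : ℝ) < 81 / 400 := by norm_num
  have h1 : ∀ i, ‖∫ x in A i, x ∂(stdGaussian E)‖ ^ 2 ≤
      (81 / 400) * ((stdGaussian E) (A i)).toReal + ‖∫ x in A i, x ∂(stdGaussian E)‖ ^ 2 / 2 := by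
    intro i
    have h2 := norm_sq_moment_le (A i) (hA i) (81 / 400)
    have h3 := integral_max_inner_le (∫ y in A i, y ∂(stdGaussian E)) (81 / 400) ht
    have h4 : (81 / 800) * ‖∫ y in A i, y ∂(stdGaussian E)‖ ^ 2 / (81 / 400) =
        ‖∫ y in A i, y ∂(stdGaussian E)‖ ^ 2 / 2 := by
      ring
    rw [h4] at h3
    linarith
  have h5 : F ≤ ∑ i, ((81 / 400) * ((stdGaussian E) (A i)).toReal +
      ‖∫ x in A i, x ∂(stdGaussian E)‖ ^ 2 / 2) :=
    Finset.sum_le_sum fun i _ => h1 i
  rw [Finset.sum_add_distrib, ← Finset.mul_sum, ← Finset.sum_div, ← hF] at h5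
  have h6 := sum_measure_le_one A hA hd
  nlinarith

end Vale.Agent.Lib.P226
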