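import Vale.Agent.Lib.P226.Split

/-!
Elementary estimates for the normal distribution function and the numerical inequalities
used in the reduction to boundedly many cells.
-/

open MeasureTheory ProbabilityTheory Real Set Filter
open scoped ENNReal

namespace Vale.Agent.Lib.P226

lemma normCdf_nonneg (x : ℝ) : 0 ≤ normCdf x := measureReal_nonneg

lemma normCdf_le_one (x : ℝ) : normCdf x ≤ 1 := measureReal_le_one

lemma normCdf_mono {x y : ℝ} (h : x ≤ y) : normCdf x ≤ normCdf y :=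
  measureReal_mono (Iic_subset_Iic.mpr h)

/-- Lower bound for the upper tail of the standard normal distribution. -/
lemma normCdf_le_exp (x : ℝ) (hx : 0 ≤ x) :
    normCdf x ≤ rexp (-(cG * rexp (-((x + 1) ^ 2 / 2)))) := by
  set c : ℝ := cG * rexp (-((x + 1) ^ 2 / 2)) with hc
  have hc0 : 0 ≤ c := by have := cG_pos; positivity
  have h1 : ENNReal.ofReal c ≤ gaussianReal 0 1 (Ioc x (x + 1)) := by
    rw [gaussianReal_apply 0 (by norm_num)]
    have hle : ∀ y ∈ Ioc x (x + 1), ENNReal.ofReal c ≤ gaussianPDF 0 1 y := by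
      intro y hy
      rw [gaussianPDF, gaussianPDFReal_01]
      apply ENNReal.ofReal_le_ofReal
      rw [hc]
      apply mul_le_mul_of_nonneg_left _ cG_pos.le
      apply Real.exp_le_exp.mpr
      have h2 : y ^ 2 ≤ (x + 1) ^ 2 := pow_le_pow_left₀ (by linarith [hy.1]) hy.2 2
      linarith
    calc ENNReal.ofReal c = ∫⁻ _ in Ioc x (x + 1), ENNReal.ofReal c := by
          rw [setLIntegral_const, Real.volume_Ioc]
          simp
      _ ≤ ∫⁻ y in Ioc x (x + 1), gaussianPDF 0 1 y :=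
          setLIntegral_mono (by fun_prop) hle
  have h2 : c ≤ (gaussianReal 0 1).real (Ioc x (x + 1)) := by
    rw [measureReal_def]
    exact (ENNReal.ofReal_le_iff_le_toReal (measure_ne_top _ _)).mp h1
  have h3 : normCdf x + (gaussianReal 0 1).real (Ioc x (x + 1)) ≤ 1 := by
    unfold normCdf
    rw [← measureReal_union (Iic_disjoint_Ioc le_rfl) measurableSet_Ioc]
    exact measureReal_le_one
  have h4 : 1 - c ≤ rexp (-c) := Real.one_sub_le_exp_neg c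
  linarith

lemma normCdf_pow_le (x : ℝ) (hx : 0 ≤ x) (n : ℕ) :
    normCdf x ^ n ≤ rexp (-(n * (cG * rexp (-((x + 1) ^ 2 / 2))))) := by
  have h1 := pow_le_pow_left₀ (normCdf_nonneg x) (normCdf_le_exp x hx) n
  refine h1.trans (le_of_eq ?_)
  rw [← Real.exp_nat_mul]
  congr 1
  ring

lemma cG_ge : (39 / 100 : ℝ) ≤ cG := by
  unfold cG
  have hpi := Real.pi_lt_d2
  have hpos : (0 : ℝ) < 2 * π := by positivity
  have hs : √(2 * π) ≤ 100 / 39 := by
    rw [Real.sqrt_le_left (by positivity)]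
    norm_num
    linarith
  have hs0 : 0 < √(2 * π) := Real.sqrt_pos.mpr hpos
  rw [le_inv_comm₀ (by norm_num) hs0]
  norm_num
  norm_num at hs
  exact hs

lemma exp_nat_ge (n : ℕ) : (27182 / 10000 : ℝ) ^ n ≤ rexp n := by
  rw [← Real.exp_one_pow]
  apply pow_le_pow_left₀ (by norm_num)
  have := Real.exp_one_gt_d9
  linarith

lemma exp_nat_le (n : ℕ) : rexp n ≤ (27183 / 10000 : ℝ) ^ n := by
  rw [← Real.exp_one_pow]
  apply pow_le_pow_left₀ (Real.exp_pos 1).le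
  have := Real.exp_one_lt_d9
  linarith

lemma exp_neg_le_of {Nu L s : ℝ} (h : 4 * L + 3 ≤ Nu) (hs : s = rexp (-L)) :
    rexp (-Nu) ≤ s ^ 4 / 16 := by
  have h1 : s ^ 4 = rexp (-(4 * L)) := by
    rw [hs, ← Real.exp_nat_mul]
    congr 1
    push_cast
    ring
  have h2 : rexp (-Nu) ≤ rexp (-(4 * L) + -3) := Real.exp_le_exp.mpr (by linarith)
  have h3 : rexp (-3) ≤ 1 / 16 := by
    rw [Real.exp_neg, inv_eq_one_div]
    apply one_div_le_one_div_of_le (by norm_num)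
    have := exp_nat_ge 3
    norm_num at this ⊢
    linarith
  rw [h1]
  refine h2.trans ?_
  rw [Real.exp_add]
  have h4 := Real.exp_pos (-(4 * L))
  calc rexp (-(4 * L)) * rexp (-3) ≤ rexp (-(4 * L)) * (1 / 16) :=
        mul_le_mul_of_nonneg_left h3 h4.le
    _ = rexp (-(4 * L)) / 16 := by ring

/-- Case of many comparable cells. -/
lemma numeric_a {L s ρ : ℝ} {n : ℕ} (hL : 72 ≤ L) (hs : s = rexp (-L)) (hρ0 : 0 ≤ ρ)
    (hρ : ρ ^ 2 = 2 * L) (hn : 1 / 2 ^ 36 ≤ ((n : ℝ) + 1) * (64 * s ^ 2)) :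
    normCdf ρ ^ n ≤ s ^ 4 / 16 := by
  refine (normCdf_pow_le ρ hρ0 n).trans (exp_neg_le_of ?_ hs)
  have hcG := cG_ge
  have hs2 : s ^ 2 = rexp (-(2 * L)) := by
    rw [hs, ← Real.exp_nat_mul]
    congr 1
    push_cast
    ring
  set X := rexp (2 * L) with hX
  have hXpos : 0 < X := Real.exp_pos _
  have hsX : s ^ 2 * X = 1 := by
    rw [hs2, hX, ← Real.exp_add]
    simp
  -- lower bound for `n`
  have hn1 : (1 / 2 ^ 42 : ℝ) * X ≤ (n : ℝ) + 1 := by
    have h1 : (1 / 2 ^ 36 : ℝ) * X ≤ ((n : ℝ) + 1) * (64 * s ^ 2) * X :=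
      mul_le_mul_of_nonneg_right hn hXpos.le
    have h2 : ((n : ℝ) + 1) * (64 * s ^ 2) * X = 64 * ((n : ℝ) + 1) := by
      calc ((n : ℝ) + 1) * (64 * s ^ 2) * X = 64 * ((n : ℝ) + 1) * (s ^ 2 * X) := by ring
        _ = 64 * ((n : ℝ) + 1) := by rw [hsX, mul_one]
    rw [h2] at h1
    norm_num at h1 ⊢
    linarith
  have hXlarge : (2 ^ 43 : ℝ) ≤ X := by
    have h1 := exp_nat_ge 43
    have h2 : rexp ((43 : ℕ) : ℝ) ≤ X := by
      apply Real.exp_le_exp.mpr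
      push_cast
      linarith
    refine le_trans ?_ (h1.trans h2)
    norm_num
  have hn2 : (1 / 2 ^ 43 : ℝ) * X ≤ n := by
    have h3 : (1 / 2 ^ 43 : ℝ) * X ≥ 1 := by
      have : (1 / 2 ^ 43 : ℝ) * 2 ^ 43 ≤ (1 / 2 ^ 43 : ℝ) * X :=
        mul_le_mul_of_nonneg_left hXlarge (by norm_num)
      norm_num at this ⊢
      linarith
    norm_num at hn1 h3 ⊢
    linarith
  -- exponential factor
  have hexp : rexp (-((5 / 4) * L + 5 / 2)) ≤ rexp (-((ρ + 1) ^ 2 / 2)) := by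
    apply Real.exp_le_exp.mpr
    nlinarith [sq_nonneg (ρ / 2 - 2)]
  have hE0 : 0 < rexp (-((5 / 4) * L + 5 / 2)) := Real.exp_pos _
  have hprod : X * rexp (-((5 / 4) * L + 5 / 2)) = rexp ((3 / 4) * L - 5 / 2) := by
    rw [hX, ← Real.exp_add]
    congr 1
    ring
  have hE1 : (27182 / 10000 : ℝ) ^ 40 * ((3 / 4) * L - 5 / 2 - 40 + 1) ≤
      rexp ((3 / 4) * L - 5 / 2) := by
    have h1 := exp_nat_ge 40
    have h2 : (3 / 4) * L - 5 / 2 - 40 + 1 ≤ rexp ((3 / 4) * L - 5 / 2 - 40) :=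
      Real.add_one_le_exp _
    have h3 : rexp ((3 / 4) * L - 5 / 2) = rexp ((40 : ℕ) : ℝ) * rexp ((3 / 4) * L - 5 / 2 - 40) := by
      rw [← Real.exp_add]
      congr 1
      push_cast
      ring
    rw [h3]
    exact mul_le_mul h1 h2 (by linarith) (Real.exp_pos _).le
  have hNu : (1 / 2 ^ 43 : ℝ) * (39 / 100) * ((27182 / 10000 : ℝ) ^ 40 * ((3 / 4) * L - 5 / 2 - 40 + 1))
      ≤ (n : ℝ) * (cG * rexp (-((ρ + 1) ^ 2 / 2))) := by
    have h1 : (1 / 2 ^ 43 : ℝ) * (39 / 100) * rexp ((3 / 4) * L - 5 / 2) ≤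
        (n : ℝ) * (cG * rexp (-((ρ + 1) ^ 2 / 2))) := by
      rw [← hprod]
      calc (1 / 2 ^ 43 : ℝ) * (39 / 100) * (X * rexp (-((5 / 4) * L + 5 / 2)))
          = ((1 / 2 ^ 43 : ℝ) * X) * ((39 / 100) * rexp (-((5 / 4) * L + 5 / 2))) := by ring
        _ ≤ (n : ℝ) * (cG * rexp (-((ρ + 1) ^ 2 / 2))) := by
            apply mul_le_mul hn2 _ (by positivity) (by positivity)
            exact mul_le_mul hcG hexp hE0.le cG_pos.le
    refine le_trans ?_ h1
    apply mul_le_mul_of_nonneg_left hE1 (by norm_num)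
  refine le_trans ?_ hNu
  have hc : (1 / 2 ^ 43 : ℝ) * (39 / 100) * (27182 / 10000 : ℝ) ^ 40 ≥ 10000 := by norm_num
  have h4 : (3 / 4) * L - 5 / 2 - 40 + 1 ≥ 12 := by linarith
  have h5 : (1 / 2 ^ 43 : ℝ) * (39 / 100) * ((27182 / 10000 : ℝ) ^ 40 * ((3 / 4) * L - 5 / 2 - 40 + 1)) =
      ((1 / 2 ^ 43 : ℝ) * (39 / 100) * (27182 / 10000 : ℝ) ^ 40) * ((3 / 4) * L - 5 / 2 - 40 + 1) := by
    ring
  rw [h5]
  nlinarith

/-- Case of many large cells. -/
lemma numeric_b {L s ρ : ℝ} {b : ℕ} (hL : 72 ≤ L) (hs : s = rexp (-L)) (hρ0 : 0 ≤ ρ)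
    (hρ : ρ ^ 2 = 2 * L) (hb : 1 < 4096 * (8 * s) * (b : ℝ) ^ 6) :
    normCdf (ρ / 8) ^ b ≤ s ^ 4 / 16 := by
  refine (normCdf_pow_le (ρ / 8) (by positivity) b).trans (exp_neg_le_of ?_ hs)
  have hcG := cG_ge
  have hspos : 0 < s := by rw [hs]; exact Real.exp_pos _
  -- lower bound for `b`
  set Y := rexp (L / 6) with hY
  have hYpos : 0 < Y := Real.exp_pos _
  have hY6 : Y ^ 6 * s = 1 := by
    rw [hY, hs, ← Real.exp_nat_mul, ← Real.exp_add]
    simp only [Real.exp_eq_one_iff]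
    push_cast
    ring
  have hb1 : Y / 6 ≤ b := by
    have h1 : (Y / 6) ^ 6 ≤ (b : ℝ) ^ 6 := by
      have h2 : (Y / 6) ^ 6 * s = 1 / 46656 := by
        have : (Y / 6) ^ 6 * s = (Y ^ 6 * s) / 46656 := by ring
        rw [this, hY6]
      have h3 : (1 / 46656 : ℝ) ≤ (b : ℝ) ^ 6 * s := by
        have : 4096 * (8 * s) * (b : ℝ) ^ 6 = 32768 * ((b : ℝ) ^ 6 * s) := by ring
        rw [this] at hb
        linarith
      have h4 : (Y / 6) ^ 6 * s ≤ (b : ℝ) ^ 6 * s := by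
        rw [h2]
        exact h3
      exact le_of_mul_le_mul_right h4 hspos
    exact (pow_le_pow_iff_left₀ (by positivity) (by positivity) (by norm_num)).mp h1
  have hexp : rexp (-(L / 32 + 1)) ≤ rexp (-((ρ / 8 + 1) ^ 2 / 2)) := by
    apply Real.exp_le_exp.mpr
    nlinarith [sq_nonneg (ρ / 8 - 1)]
  have hE0 : 0 < rexp (-(L / 32 + 1)) := Real.exp_pos _
  have hprod : Y * rexp (-(L / 32 + 1)) = rexp ((13 / 96) * L - 1) := by
    rw [hY, ← Real.exp_add]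
    congr 1
    ring
  have hE1 : (27182 / 10000 : ℝ) ^ 8 * ((13 / 96) * L - 1 - 8 + 1) ≤ rexp ((13 / 96) * L - 1) := by
    have h1 := exp_nat_ge 8
    have h2 : (13 / 96) * L - 1 - 8 + 1 ≤ rexp ((13 / 96) * L - 1 - 8) := Real.add_one_le_exp _
    have h3 : rexp ((13 / 96) * L - 1) = rexp ((8 : ℕ) : ℝ) * rexp ((13 / 96) * L - 1 - 8) := by
      rw [← Real.exp_add]
      congr 1
      push_cast
      ring
    rw [h3]
    exact mul_le_mul h1 h2 (by linarith) (Real.exp_pos _).le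
  have hNu : (1 / 6 : ℝ) * (39 / 100) * ((27182 / 10000 : ℝ) ^ 8 * ((13 / 96) * L - 1 - 8 + 1))
      ≤ (b : ℝ) * (cG * rexp (-((ρ / 8 + 1) ^ 2 / 2))) := by
    have h1 : (1 / 6 : ℝ) * (39 / 100) * rexp ((13 / 96) * L - 1) ≤
        (b : ℝ) * (cG * rexp (-((ρ / 8 + 1) ^ 2 / 2))) := by
      rw [← hprod]
      calc (1 / 6 : ℝ) * (39 / 100) * (Y * rexp (-(L / 32 + 1)))
          = (Y / 6) * ((39 / 100) * rexp (-(L / 32 + 1))) := by ring
        _ ≤ (b : ℝ) * (cG * rexp (-((ρ / 8 + 1) ^ 2 / 2))) := by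
            apply mul_le_mul hb1 _ (by positivity) (by positivity)
            exact mul_le_mul hcG hexp hE0.le cG_pos.le
    refine le_trans ?_ h1
    apply mul_le_mul_of_nonneg_left hE1 (by norm_num)
  refine le_trans ?_ hNu
  have hc : (1 / 6 : ℝ) * (39 / 100) * (27182 / 10000 : ℝ) ^ 8 ≥ 193 := by norm_num
  have h5 : (1 / 6 : ℝ) * (39 / 100) * ((27182 / 10000 : ℝ) ^ 8 * ((13 / 96) * L - 1 - 8 + 1)) =
      ((1 / 6 : ℝ) * (39 / 100) * (27182 / 10000 : ℝ) ^ 8) * ((13 / 96) * L - 1 - 8 + 1) := by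
    ring
  rw [h5]
  have h4 : (13 / 96) * L - 1 - 8 + 1 ≥ 1 := by linarith
  nlinarith

end Vale.Agent.Lib.P226
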