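import Mathlib

/-!
One-dimensional Gaussian estimates for the dimension-free bound on Gaussian first moments of
partitions: for `u > 0`, `u * ∫ (y - u)₊ dN(0,1)(y) ≤ 81 / 800`.
-/

open MeasureTheory ProbabilityTheory Real Set Filter Topology
open scoped NNReal ENNReal

namespace Vale.Agent.Lib.P226

lemma nonneg_of_hasDerivAt {f f' : ℝ → ℝ} (hf : ∀ x, HasDerivAt f (f' x) x) (h0 : 0 ≤ f 0)
    (hd : ∀ x, 0 ≤ x → 0 ≤ f' x) : ∀ x, 0 ≤ x → 0 ≤ f x := by
  intro x hx
  have hmono : MonotoneOn f (Ici (0 : ℝ)) := by
    apply monotoneOn_of_deriv_nonneg (convex_Ici 0)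
    · exact fun y _ => (hf y).continuousAt.continuousWithinAt
    · exact fun y _ => (hf y).differentiableAt.differentiableWithinAt
    · intro y hy
      rw [interior_Ici] at hy
      rw [(hf y).deriv]
      exact hd y (le_of_lt hy)
  have := hmono self_mem_Ici (mem_Ici.mpr hx) hx
  linarith

lemma hasDerivAt_exp_neg (x : ℝ) : HasDerivAt (fun a => rexp (-a)) (-rexp (-x)) x := by
  have h := (hasDerivAt_neg x).exp
  exact h.congr_deriv (by ring)

lemma hp (n : ℕ) (c : ℝ) (x : ℝ) :
    HasDerivAt (fun a : ℝ => a ^ (n + 1) / c) ((n + 1) * x ^ n / c) x := by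
  have := (hasDerivAt_pow (n + 1) x).div_const c
  simpa using this

lemma hone (x : ℝ) : HasDerivAt (fun a : ℝ => 1 - a) (-1) x := by
  simpa using (hasDerivAt_id' x).const_sub 1

lemma exp_neg_le2 (a : ℝ) (ha : 0 ≤ a) : rexp (-a) ≤ 1 - a + a ^ 2 / 2 := by
  have key := nonneg_of_hasDerivAt (f := fun a => 1 - a + a ^ 2 / 2 - rexp (-a))
    (f' := fun a => -1 + a + rexp (-a)) (by
      intro x
      have := ((hone x).add (hp 1 2 x)).sub (hasDerivAt_exp_neg x)
      refine this.congr_deriv ?_
      push_cast
      ring) (by simp) (by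
      intro x _
      have := Real.one_sub_le_exp_neg x
      linarith) a ha
  linarith

lemma exp_neg_ge3 (a : ℝ) (ha : 0 ≤ a) : 1 - a + a ^ 2 / 2 - a ^ 3 / 6 ≤ rexp (-a) := by
  have key := nonneg_of_hasDerivAt (f := fun a => rexp (-a) - (1 - a + a ^ 2 / 2 - a ^ 3 / 6))
    (f' := fun a => 1 - a + a ^ 2 / 2 - rexp (-a)) (by
      intro x
      have := (hasDerivAt_exp_neg x).sub (((hone x).add (hp 1 2 x)).sub (hp 2 6 x))
      refine this.congr_deriv ?_
      push_cast
      ring) (by simp) (by
      intro x hx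
      have := exp_neg_le2 x hx
      linarith) a ha
  linarith

lemma exp_neg_le4 (a : ℝ) (ha : 0 ≤ a) :
    rexp (-a) ≤ 1 - a + a ^ 2 / 2 - a ^ 3 / 6 + a ^ 4 / 24 := by
  have key := nonneg_of_hasDerivAt
    (f := fun a => (1 - a + a ^ 2 / 2 - a ^ 3 / 6 + a ^ 4 / 24) - rexp (-a))
    (f' := fun a => rexp (-a) - (1 - a + a ^ 2 / 2 - a ^ 3 / 6)) (by
      intro x
      have := (((((hone x).add (hp 1 2 x)).sub (hp 2 6 x))).add (hp 3 24 x)).sub
        (hasDerivAt_exp_neg x)
      refine this.congr_deriv ?_
      push_cast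
      ring) (by simp) (by
      intro x hx
      have := exp_neg_ge3 x hx
      linarith) a ha
  linarith

/-- Upper polynomial for `exp (-y²/2)`. -/
noncomputable def upE (y : ℝ) : ℝ := 1 - y ^ 2 / 2 + y ^ 4 / 8 - y ^ 6 / 48 + y ^ 8 / 384

/-- Primitive of `upE`. -/
noncomputable def upB (u : ℝ) : ℝ :=
  u - u ^ 3 / 6 + u ^ 5 / 40 - u ^ 7 / 336 + u ^ 9 / 3456

lemma exp_le_upE (y : ℝ) : rexp (-(y ^ 2 / 2)) ≤ upE y := by
  have h := exp_neg_le4 (y ^ 2 / 2) (by positivity)
  have : upE y = 1 - (y ^ 2 / 2) + (y ^ 2 / 2) ^ 2 / 2 - (y ^ 2 / 2) ^ 3 / 6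
      + (y ^ 2 / 2) ^ 4 / 24 := by
    unfold upE; ring
  rw [this]; exact h

lemma hasDerivAt_upB (x : ℝ) : HasDerivAt upB (upE x) x := by
  unfold upE
  have := (((((hasDerivAt_id' x).sub (hp 2 6 x)).add (hp 4 40 x)).sub (hp 6 336 x)).add
    (hp 8 3456 x))
  refine HasDerivAt.congr_deriv (f := upB) this ?_
  push_cast
  ring

lemma continuous_upE : Continuous upE := by
  unfold upE; fun_prop

lemma continuous_gauss : Continuous (fun y : ℝ => rexp (-(y ^ 2 / 2))) := by fun_prop

lemma integral_gauss_le (u : ℝ) (hu : 0 ≤ u) :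
    ∫ y in (0 : ℝ)..u, rexp (-(y ^ 2 / 2)) ≤ upB u := by
  have h1 : ∫ y in (0 : ℝ)..u, rexp (-(y ^ 2 / 2)) ≤ ∫ y in (0 : ℝ)..u, upE y :=
    intervalIntegral.integral_mono_on hu (continuous_gauss.intervalIntegrable _ _)
      (continuous_upE.intervalIntegrable _ _) (fun y _ => exp_le_upE y)
  have h2 : ∫ y in (0 : ℝ)..u, upE y = upB u - upB 0 :=
    intervalIntegral.integral_eq_sub_of_hasDerivAt (fun x _ => hasDerivAt_upB x)
      (continuous_upE.intervalIntegrable _ _)
  have h3 : upB 0 = 0 := by simp [upB]
  rw [h2, h3, sub_zero] at h1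
  exact h1

/-- The normal density constant. -/
noncomputable def cG : ℝ := (√(2 * π))⁻¹

lemma cG_pos : 0 < cG := by
  unfold cG; positivity

lemma cG_le : cG ≤ 398943 / 1000000 := by
  unfold cG
  have hpi := Real.pi_gt_d6
  have hs : (1000000 / 398943 : ℝ) ≤ √(2 * π) := by
    apply Real.le_sqrt_of_sq_le
    norm_num
    linarith
  have hpos : (0 : ℝ) < 1000000 / 398943 := by norm_num
  calc (√(2 * π))⁻¹ ≤ (1000000 / 398943 : ℝ)⁻¹ := inv_anti₀ hpos hs
    _ = 398943 / 1000000 := by norm_num

lemma cG_mul_sqrt : cG * √(2 * π) = 1 := by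
  unfold cG
  have : √(2 * π) ≠ 0 := by positivity
  field_simp

lemma gaussianPDFReal_01 (y : ℝ) : gaussianPDFReal 0 1 y = cG * rexp (-(y ^ 2 / 2)) := by
  unfold cG
  simp [gaussianPDFReal_def, neg_div]

/-- The function `ψ(u) = E (g - u)₊`. -/
noncomputable def psi (u : ℝ) : ℝ := ∫ y, max (y - u) 0 ∂(gaussianReal 0 1)

lemma integrable_mul_gauss : Integrable (fun y : ℝ => y * rexp (-(y ^ 2 / 2))) := by
  have h := integrable_mul_exp_neg_mul_sq (b := 1 / 2) (by norm_num)
  refine h.congr (Eventually.of_forall fun y => ?_)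
  simp only
  congr 2
  ring

lemma integrable_gauss : Integrable (fun y : ℝ => rexp (-(y ^ 2 / 2))) := by
  have h := integrable_exp_neg_mul_sq (b := 1 / 2) (by norm_num)
  refine h.congr (Eventually.of_forall fun y => ?_)
  simp only
  congr 1
  ring

lemma integral_Ioi_mul_gauss (u : ℝ) :
    ∫ y in Ioi u, y * rexp (-(y ^ 2 / 2)) = rexp (-(u ^ 2 / 2)) := by
  have hderiv : ∀ x ∈ Ioi u, HasDerivAt (fun y : ℝ => -rexp (-(y ^ 2 / 2)))
      (x * rexp (-(x ^ 2 / 2))) x := by
    intro x _
    have h1 : HasDerivAt (fun y : ℝ => -(y ^ 2 / 2)) (-x) x := by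
      have := (hp 1 2 x).neg
      refine this.congr_deriv ?_
      push_cast
      ring
    have h2 := h1.exp.neg
    refine h2.congr_deriv ?_
    ring
  have hlim : Tendsto (fun y : ℝ => -rexp (-(y ^ 2 / 2))) atTop (𝓝 0) := by
    have h1 : Tendsto (fun y : ℝ => y ^ 2 / 2) atTop atTop :=
      (tendsto_pow_atTop (by norm_num)).atTop_div_const (by norm_num)
    have h2 := (Real.tendsto_exp_neg_atTop_nhds_zero.comp h1).neg
    simpa using h2
  have hcont : ContinuousWithinAt (fun y : ℝ => -rexp (-(y ^ 2 / 2))) (Ici u) u := by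
    exact Continuous.continuousWithinAt (by fun_prop)
  have := integral_Ioi_of_hasDerivAt_of_tendsto hcont hderiv
    integrable_mul_gauss.integrableOn hlim
  rw [this]
  ring

lemma integral_Ioi_gauss (u : ℝ) (hu : 0 ≤ u) :
    ∫ y in Ioi u, rexp (-(y ^ 2 / 2)) =
      √(2 * π) / 2 - ∫ y in (0 : ℝ)..u, rexp (-(y ^ 2 / 2)) := by
  have h0 : ∫ y in Ioi (0 : ℝ), rexp (-(y ^ 2 / 2)) = √(2 * π) / 2 := by
    have := integral_gaussian_Ioi (1 / 2)
    have e : (fun x : ℝ => rexp (-(1 / 2) * x ^ 2)) = fun y => rexp (-(y ^ 2 / 2)) := by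
      ext y; congr 1; ring
    rw [e] at this
    rw [this]
    congr 2
    ring
  have h1 := intervalIntegral.integral_Ioi_sub_Ioi
    (integrable_gauss.integrableOn (s := Ioi (0 : ℝ))) hu
  rw [h0] at h1
  linarith

lemma psi_formula (u : ℝ) (hu : 0 ≤ u) :
    psi u = cG * rexp (-(u ^ 2 / 2)) - u * (1 / 2 - cG * ∫ y in (0 : ℝ)..u, rexp (-(y ^ 2 / 2))) := by
  unfold psi
  rw [integral_gaussianReal_eq_integral_smul (by norm_num)]
  have hzero : ∀ y, y ∉ Ioi u → gaussianPDFReal 0 1 y • max (y - u) 0 = 0 := by
    intro y hy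
    have : y ≤ u := not_lt.mp hy
    have h : max (y - u) 0 = 0 := max_eq_right (by linarith)
    simp [h]
  rw [← setIntegral_eq_integral_of_forall_compl_eq_zero hzero]
  have hcongr : ∫ y in Ioi u, gaussianPDFReal 0 1 y • max (y - u) 0 =
      ∫ y in Ioi u, (cG * (y * rexp (-(y ^ 2 / 2))) - (cG * u) * rexp (-(y ^ 2 / 2))) := by
    apply setIntegral_congr_fun measurableSet_Ioi
    intro y hy
    have hy' : u < y := hy
    have h : max (y - u) 0 = y - u := max_eq_left (by linarith)
    simp only [smul_eq_mul, h, gaussianPDFReal_01]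
    ring
  rw [hcongr, integral_sub (integrable_mul_gauss.integrableOn.const_mul _)
    (integrable_gauss.integrableOn.const_mul _), integral_const_mul, integral_const_mul,
    integral_Ioi_mul_gauss, integral_Ioi_gauss u hu]
  have h2 := cG_mul_sqrt
  have : cG * u * (√(2 * π) / 2 - ∫ y in (0 : ℝ)..u, rexp (-(y ^ 2 / 2))) =
      u * (1 / 2 - cG * ∫ y in (0 : ℝ)..u, rexp (-(y ^ 2 / 2))) := by
    have : cG * u * (√(2 * π) / 2) = u * (1 / 2) := by
      calc cG * u * (√(2 * π) / 2) = u * (cG * √(2 * π)) / 2 := by ring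
        _ = u * (1 / 2) := by rw [h2]; ring
    linear_combination this
  rw [this]

/-- Polynomial appearing in the upper bound for `u ψ(u)`. -/
noncomputable def upP (u : ℝ) : ℝ := u * ((398943 / 1000000) * (upE u + u * upB u) - u / 2)

lemma mul_psi_le_upP (u : ℝ) (hu : 0 ≤ u) : u * psi u ≤ upP u := by
  rw [psi_formula u hu]
  unfold upP
  apply mul_le_mul_of_nonneg_left _ hu
  have hc := cG_pos
  have h1 := exp_le_upE u
  have h2 := integral_gauss_le u hu
  have hexp : 0 < rexp (-(u ^ 2 / 2)) := exp_pos _
  have hint : 0 ≤ ∫ y in (0 : ℝ)..u, rexp (-(y ^ 2 / 2)) :=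
    intervalIntegral.integral_nonneg hu (fun y _ => (exp_pos _).le)
  have hX : 0 ≤ upE u + u * upB u := by
    have : 0 ≤ u * upB u := mul_nonneg hu (le_trans hint h2)
    linarith
  have h3 : cG * (rexp (-(u ^ 2 / 2)) + u * ∫ y in (0 : ℝ)..u, rexp (-(y ^ 2 / 2))) ≤
      cG * (upE u + u * upB u) := by
    apply mul_le_mul_of_nonneg_left _ hc.le
    have := mul_le_mul_of_nonneg_left h2 hu
    linarith
  have h4 : cG * (upE u + u * upB u) ≤ (398943 / 1000000) * (upE u + u * upB u) :=
    mul_le_mul_of_nonneg_right cG_le hX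
  nlinarith [h3, h4]

lemma upP_le_piece0 (u : ℝ) (h0 : (0 / 1 : ℝ) ≤ u) (h1 : u ≤ 17 / 40) : upP u ≤ 81 / 800 := by
  have hx : 0 ≤ u - 0 / 1 := by linarith
  have hy : 0 ≤ 17 / 40 - u := by linarith
  generalize hX : u - 0 / 1 = x at hx
  generalize hY : 17 / 40 - u = y at hy
  have hexpr : (81 / 800 : ℝ) - upP u =
      (42467328000000000/34271896307633) * x ^ 0 * y ^ 11 +
      (396025858621440000/34271896307633) * x ^ 1 * y ^ 10 +
      (1662435354214400000/34271896307633) * x ^ 2 * y ^ 9 +
      (4141441119161548800/34271896307633) * x ^ 3 * y ^ 8 +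
      (6792740996146790400/34271896307633) * x ^ 4 * y ^ 7 +
      (7687977288781269504/34271896307633) * x ^ 5 * y ^ 6 +
      (6112761692240231424/34271896307633) * x ^ 6 * y ^ 5 +
      (425605808458932023148/4283987038454125) * x ^ 7 * y ^ 4 +
      (162188336547646172592/4283987038454125) * x ^ 8 * y ^ 3 +
      (179659550712024242665797/19192261932274480000) * x ^ 9 * y ^ 2 +
      (12909144673985791373637/9596130966137240000) * x ^ 10 * y ^ 1 +
      (7808066489959410395729663/92122857274917504000000) * x ^ 11 * y ^ 0 := by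
    subst hX hY
    unfold upP upE upB
    ring
  have hnn : 0 ≤
      (42467328000000000/34271896307633) * x ^ 0 * y ^ 11 +
      (396025858621440000/34271896307633) * x ^ 1 * y ^ 10 +
      (1662435354214400000/34271896307633) * x ^ 2 * y ^ 9 +
      (4141441119161548800/34271896307633) * x ^ 3 * y ^ 8 +
      (6792740996146790400/34271896307633) * x ^ 4 * y ^ 7 +
      (7687977288781269504/34271896307633) * x ^ 5 * y ^ 6 +
      (6112761692240231424/34271896307633) * x ^ 6 * y ^ 5 +
      (425605808458932023148/4283987038454125) * x ^ 7 * y ^ 4 +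
      (162188336547646172592/4283987038454125) * x ^ 8 * y ^ 3 +
      (179659550712024242665797/19192261932274480000) * x ^ 9 * y ^ 2 +
      (12909144673985791373637/9596130966137240000) * x ^ 10 * y ^ 1 +
      (7808066489959410395729663/92122857274917504000000) * x ^ 11 * y ^ 0 := by positivity
  linarith

lemma upP_le_piece1 (u : ℝ) (h0 : (17 / 40 : ℝ) ≤ u) (h1 : u ≤ 53 / 100) : upP u ≤ 81 / 800 := by
  have hx : 0 ≤ u - 17 / 40 := by linarith
  have hy : 0 ≤ 53 / 100 - u := by linarith
  generalize hX : u - 17 / 40 = x at hx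
  generalize hY : 53 / 100 - u = y at hy
  have hexpr : (81 / 800 : ℝ) - upP u =
      (24400207781123157486655196875/60258938973279363072) * x ^ 0 * y ^ 11 +
      (119516947812815018023815585625/30129469486639681536) * x ^ 1 * y ^ 10 +
      (264586903780305112440229658125/15064734743319840768) * x ^ 2 * y ^ 9 +
      (116414120522098290962220042125/2510789123886640128) * x ^ 3 * y ^ 8 +
      (50864679039735196406579307325/627697280971660032) * x ^ 4 * y ^ 7 +
      (4410530792239429287607129657/44835520069404288) * x ^ 5 * y ^ 6 +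
      (9478704466884959095133863213/112088800173510720) * x ^ 6 * y ^ 5 +
      (20174517724774470391395115297/392310800607287520) * x ^ 7 * y ^ 4 +
      (42476110048007914156034853013/1961554003036437600) * x ^ 8 * y ^ 3 +
      (88349958916481711080334549257/14711655022773282000) * x ^ 9 * y ^ 2 +
      (181292459919137260269136304893/183895687784666025000) * x ^ 10 * y ^ 1 +
      (33317709978682050849575748467/459739219461665062500) * x ^ 11 * y ^ 0 := by
    subst hX hY
    unfold upP upE upB
    ring
  have hnn : 0 ≤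
      (24400207781123157486655196875/60258938973279363072) * x ^ 0 * y ^ 11 +
      (119516947812815018023815585625/30129469486639681536) * x ^ 1 * y ^ 10 +
      (264586903780305112440229658125/15064734743319840768) * x ^ 2 * y ^ 9 +
      (116414120522098290962220042125/2510789123886640128) * x ^ 3 * y ^ 8 +
      (50864679039735196406579307325/627697280971660032) * x ^ 4 * y ^ 7 +
      (4410530792239429287607129657/44835520069404288) * x ^ 5 * y ^ 6 +
      (9478704466884959095133863213/112088800173510720) * x ^ 6 * y ^ 5 +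
      (20174517724774470391395115297/392310800607287520) * x ^ 7 * y ^ 4 +
      (42476110048007914156034853013/1961554003036437600) * x ^ 8 * y ^ 3 +
      (88349958916481711080334549257/14711655022773282000) * x ^ 9 * y ^ 2 +
      (181292459919137260269136304893/183895687784666025000) * x ^ 10 * y ^ 1 +
      (33317709978682050849575748467/459739219461665062500) * x ^ 11 * y ^ 0 := by positivity
  linarith

lemma upP_le_piece2 (u : ℝ) (h0 : (53 / 100 : ℝ) ≤ u) (h1 : u ≤ 117 / 200) : upP u ≤ 81 / 800 := by
  have hx : 0 ≤ u - 53 / 100 := by linarith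
  have hy : 0 ≤ 117 / 200 - u := by linarith
  generalize hX : u - 53 / 100 = x at hx
  generalize hY : 117 / 200 - u = y at hy
  have hexpr : (81 / 800 : ℝ) - upP u =
      (33317709978682050849575748467/374471567676937500) * x ^ 0 * y ^ 11 +
      (19458272048253411952812164721/22695246525875000) * x ^ 1 * y ^ 10 +
      (33815876361652535339914611969/9078098610350000) * x ^ 2 * y ^ 9 +
      (174695572134105270533105224323/18156197220700000) * x ^ 3 * y ^ 8 +
      (297732662030830355749273032147/18156197220700000) * x ^ 4 * y ^ 7 +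
      (501495496140524537176784317683/25937424601000000) * x ^ 5 * y ^ 6 +
      (833478053387583736900628873187/51874849202000000) * x ^ 6 * y ^ 5 +
      (1364252034615614168541866478243/145249577765600000) * x ^ 7 * y ^ 4 +
      (2194683292622503621213338015027/580998311062400000) * x ^ 8 * y ^ 3 +
      (1154267130037960051450864030001/1161996622124800000) * x ^ 9 * y ^ 2 +
      (162135052300362988581690988899/1056360565568000000) * x ^ 10 * y ^ 1 +
      (2699436762371852299123750272321/255639256867456000000) * x ^ 11 * y ^ 0 := by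
    subst hX hY
    unfold upP upE upB
    ring
  have hnn : 0 ≤
      (33317709978682050849575748467/374471567676937500) * x ^ 0 * y ^ 11 +
      (19458272048253411952812164721/22695246525875000) * x ^ 1 * y ^ 10 +
      (33815876361652535339914611969/9078098610350000) * x ^ 2 * y ^ 9 +
      (174695572134105270533105224323/18156197220700000) * x ^ 3 * y ^ 8 +
      (297732662030830355749273032147/18156197220700000) * x ^ 4 * y ^ 7 +
      (501495496140524537176784317683/25937424601000000) * x ^ 5 * y ^ 6 +
      (833478053387583736900628873187/51874849202000000) * x ^ 6 * y ^ 5 +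
      (1364252034615614168541866478243/145249577765600000) * x ^ 7 * y ^ 4 +
      (2194683292622503621213338015027/580998311062400000) * x ^ 8 * y ^ 3 +
      (1154267130037960051450864030001/1161996622124800000) * x ^ 9 * y ^ 2 +
      (162135052300362988581690988899/1056360565568000000) * x ^ 10 * y ^ 1 +
      (2699436762371852299123750272321/255639256867456000000) * x ^ 11 * y ^ 0 := by positivity
  linarith

lemma upP_le_piece3 (u : ℝ) (h0 : (117 / 200 : ℝ) ≤ u) (h1 : u ≤ 16 / 25) : upP u ≤ 81 / 800 := by
  have hx : 0 ≤ u - 117 / 200 := by linarith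
  have hy : 0 ≤ 16 / 25 - u := by linarith
  generalize hX : u - 117 / 200 = x at hx
  generalize hY : 16 / 25 - u = y at hy
  have hexpr : (81 / 800 : ℝ) - upP u =
      (2699436762371852299123750272321/255639256867456000000) * x ^ 0 * y ^ 11 +
      (255566737463130419845186773/3242178075125000) * x ^ 1 * y ^ 10 +
      (17920796362614162611088284159/72624788882800000) * x ^ 2 * y ^ 9 +
      (33574356459090104579838333/81054451878125) * x ^ 3 * y ^ 8 +
      (229728860455168024969168908/567381163146875) * x ^ 4 * y ^ 7 +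
      (117107438749345457761577472/405272259390625) * x ^ 5 * y ^ 6 +
      (130197280485151454993192448/405272259390625) * x ^ 6 * y ^ 5 +
      (267033052988808202455416832/567381163146875) * x ^ 7 * y ^ 4 +
      (37547398922417154976776192/81054451878125) * x ^ 8 * y ^ 3 +
      (150691984690066559003000832/567381163146875) * x ^ 9 * y ^ 2 +
      (3031548251216573255122944/36842932671875) * x ^ 10 * y ^ 1 +
      (1006512634948207754635902976/93617891919234375) * x ^ 11 * y ^ 0 := by
    subst hX hY
    unfold upP upE upB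
    ring
  have hnn : 0 ≤
      (2699436762371852299123750272321/255639256867456000000) * x ^ 0 * y ^ 11 +
      (255566737463130419845186773/3242178075125000) * x ^ 1 * y ^ 10 +
      (17920796362614162611088284159/72624788882800000) * x ^ 2 * y ^ 9 +
      (33574356459090104579838333/81054451878125) * x ^ 3 * y ^ 8 +
      (229728860455168024969168908/567381163146875) * x ^ 4 * y ^ 7 +
      (117107438749345457761577472/405272259390625) * x ^ 5 * y ^ 6 +
      (130197280485151454993192448/405272259390625) * x ^ 6 * y ^ 5 +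
      (267033052988808202455416832/567381163146875) * x ^ 7 * y ^ 4 +
      (37547398922417154976776192/81054451878125) * x ^ 8 * y ^ 3 +
      (150691984690066559003000832/567381163146875) * x ^ 9 * y ^ 2 +
      (3031548251216573255122944/36842932671875) * x ^ 10 * y ^ 1 +
      (1006512634948207754635902976/93617891919234375) * x ^ 11 * y ^ 0 := by positivity
  linarith

lemma upP_le_piece4 (u : ℝ) (h0 : (16 / 25 : ℝ) ≤ u) (h1 : u ≤ 17 / 20) : upP u ≤ 81 / 800 := by
  have hx : 0 ≤ u - 16 / 25 := by linarith
  have hy : 0 ≤ 17 / 20 - u := by linarith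
  generalize hX : u - 16 / 25 = x at hx
  generalize hY : 17 / 20 - u = y at hy
  have hexpr : (81 / 800 : ℝ) - upP u =
      (491461247533304567693312/114934804865416265625) * x ^ 0 * y ^ 11 +
      (2337215675678888405712896/22986960973083253125) * x ^ 1 * y ^ 10 +
      (900346900602289202003968/919478438923330125) * x ^ 2 * y ^ 9 +
      (300708525861419865757184/61298562594888675) * x ^ 3 * y ^ 8 +
      (181275548661762850010624/12259712518977735) * x ^ 4 * y ^ 7 +
      (50828705137439067434152/1751387502711105) * x ^ 5 * y ^ 6 +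
      (13522116277422965713856/350277500542221) * x ^ 6 * y ^ 5 +
      (345756149198476367532925/9807770015182188) * x ^ 7 * y ^ 4 +
      (428629769210043676790125/19615540030364376) * x ^ 8 * y ^ 3 +
      (33181196614733409143291875/3766183685829960192) * x ^ 9 * y ^ 2 +
      (3933739997215490647958125/1883091842914980096) * x ^ 10 * y ^ 1 +
      (13342349973917927638946875/60258938973279363072) * x ^ 11 * y ^ 0 := by
    subst hX hY
    unfold upP upE upB
    ring
  have hnn : 0 ≤
      (491461247533304567693312/114934804865416265625) * x ^ 0 * y ^ 11 +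
      (2337215675678888405712896/22986960973083253125) * x ^ 1 * y ^ 10 +
      (900346900602289202003968/919478438923330125) * x ^ 2 * y ^ 9 +
      (300708525861419865757184/61298562594888675) * x ^ 3 * y ^ 8 +
      (181275548661762850010624/12259712518977735) * x ^ 4 * y ^ 7 +
      (50828705137439067434152/1751387502711105) * x ^ 5 * y ^ 6 +
      (13522116277422965713856/350277500542221) * x ^ 6 * y ^ 5 +
      (345756149198476367532925/9807770015182188) * x ^ 7 * y ^ 4 +
      (428629769210043676790125/19615540030364376) * x ^ 8 * y ^ 3 +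
      (33181196614733409143291875/3766183685829960192) * x ^ 9 * y ^ 2 +
      (3933739997215490647958125/1883091842914980096) * x ^ 10 * y ^ 1 +
      (13342349973917927638946875/60258938973279363072) * x ^ 11 * y ^ 0 := by positivity
  linarith

lemma upP_le_piece5 (u : ℝ) (h0 : (17 / 20 : ℝ) ≤ u) (h1 : u ≤ 17 / 10) : upP u ≤ 81 / 800 := by
  have hx : 0 ≤ u - 17 / 20 := by linarith
  have hy : 0 ≤ 17 / 10 - u := by linarith
  generalize hX : u - 17 / 20 = x at hx
  generalize hY : 17 / 10 - u = y at hy
  have hexpr : (81 / 800 : ℝ) - upP u =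
      (4269551991653736844463/92122857274917504000000) * x ^ 0 * y ^ 11 +
      (37008817349807002396693/46061428637458752000000) * x ^ 1 * y ^ 10 +
      (26822407458441011631313/4606142863745875200000) * x ^ 2 * y ^ 9 +
      (18037076950097983962553/767690477290979200000) * x ^ 3 * y ^ 8 +
      (11428194891194963174413/191922619322744800000) * x ^ 4 * y ^ 7 +
      (6904763240386753865293/68543792615266000000) * x ^ 5 * y ^ 6 +
      (4008567945915625447993/34271896307633000000) * x ^ 6 * y ^ 5 +
      (2242694882266272149713/23990327415343100000) * x ^ 7 * y ^ 4 +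
      (1205056528194509012053/23990327415343100000) * x ^ 8 * y ^ 3 +
      (612525679605543891013/35985491123014650000) * x ^ 9 * y ^ 2 +
      (281690662005025456993/89963727807536625000) * x ^ 10 * y ^ 1 +
      (9109769550311563163/44981863903768312500) * x ^ 11 * y ^ 0 := by
    subst hX hY
    unfold upP upE upB
    ring
  have hnn : 0 ≤
      (4269551991653736844463/92122857274917504000000) * x ^ 0 * y ^ 11 +
      (37008817349807002396693/46061428637458752000000) * x ^ 1 * y ^ 10 +
      (26822407458441011631313/4606142863745875200000) * x ^ 2 * y ^ 9 +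
      (18037076950097983962553/767690477290979200000) * x ^ 3 * y ^ 8 +
      (11428194891194963174413/191922619322744800000) * x ^ 4 * y ^ 7 +
      (6904763240386753865293/68543792615266000000) * x ^ 5 * y ^ 6 +
      (4008567945915625447993/34271896307633000000) * x ^ 6 * y ^ 5 +
      (2242694882266272149713/23990327415343100000) * x ^ 7 * y ^ 4 +
      (1205056528194509012053/23990327415343100000) * x ^ 8 * y ^ 3 +
      (612525679605543891013/35985491123014650000) * x ^ 9 * y ^ 2 +
      (281690662005025456993/89963727807536625000) * x ^ 10 * y ^ 1 +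
      (9109769550311563163/44981863903768312500) * x ^ 11 * y ^ 0 := by positivity
  linarith

lemma upP_le (u : ℝ) (h0 : 0 ≤ u) (h1 : u ≤ 17 / 10) : upP u ≤ 81 / 800 := by
  by_cases h2 : u ≤ 17 / 40
  · exact upP_le_piece0 u (by simpa using h0) h2
  by_cases h3 : u ≤ 53 / 100
  · exact upP_le_piece1 u (by linarith) h3
  by_cases h4 : u ≤ 117 / 200
  · exact upP_le_piece2 u (by linarith) h4
  by_cases h5 : u ≤ 16 / 25
  · exact upP_le_piece3 u (by linarith) h5
  by_cases h6 : u ≤ 17 / 20
  · exact upP_le_piece4 u (by linarith) h6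
  · exact upP_le_piece5 u (by linarith) h1

lemma integrable_max_sub (u : ℝ) : Integrable (fun y : ℝ => max (y - u) 0) (gaussianReal 0 1) := by
  have h : Integrable (fun y : ℝ => y) (gaussianReal 0 1) :=
    (memLp_id_gaussianReal (μ := 0) (v := 1) 1).integrable (by norm_num)
  exact (h.sub (integrable_const u)).sup (integrable_const 0)

lemma psi_tail (u : ℝ) (hu : 0 < u) : u * psi u ≤ rexp (-(u ^ 2 / 2) - 1) := by
  have hg : Integrable (fun y : ℝ => rexp (-u ^ 2 - 1) / u * rexp (u * y)) (gaussianReal 0 1) :=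
    (integrable_exp_mul_gaussianReal (μ := 0) (v := 1) u).const_mul _
  have hle : psi u ≤ ∫ y, rexp (-u ^ 2 - 1) / u * rexp (u * y) ∂(gaussianReal 0 1) := by
    unfold psi
    apply integral_mono_of_nonneg (Eventually.of_forall fun y => le_max_right _ _) hg
    refine Eventually.of_forall fun y => ?_
    simp only
    have hexp : rexp (-u ^ 2 - 1) / u * rexp (u * y) = rexp (u * (y - u) - 1) / u := by
      rw [div_mul_eq_mul_div, ← Real.exp_add]
      congr 2
      ring
    rw [hexp]
    apply max_le
    · rw [le_div_iff₀ hu]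
      have := Real.add_one_le_exp (u * (y - u) - 1)
      nlinarith
    · positivity
  have hm : ∫ y, rexp (-u ^ 2 - 1) / u * rexp (u * y) ∂(gaussianReal 0 1) =
      rexp (-u ^ 2 - 1) / u * rexp (u ^ 2 / 2) := by
    rw [integral_const_mul]
    have := congrFun (mgf_id_gaussianReal (μ := 0) (v := 1)) u
    simp only [mgf, id] at this
    rw [this]
    simp
  rw [hm] at hle
  have hfin : u * (rexp (-u ^ 2 - 1) / u * rexp (u ^ 2 / 2)) = rexp (-(u ^ 2 / 2) - 1) := by
    have : u * (rexp (-u ^ 2 - 1) / u * rexp (u ^ 2 / 2)) =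
        rexp (-u ^ 2 - 1) * rexp (u ^ 2 / 2) := by
      field_simp
    rw [this, ← Real.exp_add]
    congr 1
    ring
  calc u * psi u ≤ u * (rexp (-u ^ 2 - 1) / u * rexp (u ^ 2 / 2)) :=
        mul_le_mul_of_nonneg_left hle hu.le
    _ = _ := hfin

lemma exp_tail_le : rexp (-(2890 / 1000) / 2 - 1) ≤ 81 / 800 := by
  have he := Real.exp_one_gt_d9
  have h2 : (1.445 + 1 : ℝ) = 1 + 1 + 0.445 := by norm_num
  have h3 : rexp (1 + 1 + 0.445) = rexp 1 * rexp 1 * rexp 0.445 := by
    rw [Real.exp_add, Real.exp_add]
  have h4 : (1.445 : ℝ) ≤ rexp 0.445 := by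
    have := Real.add_one_le_exp (0.445 : ℝ)
    linarith
  have h5 : (800 / 81 : ℝ) ≤ rexp (1.445 + 1) := by
    rw [h2, h3]
    have hp : (0 : ℝ) < rexp 1 := exp_pos _
    have : (2.7182818283 : ℝ) * 2.7182818283 ≤ rexp 1 * rexp 1 := by nlinarith
    have : (2.7182818283 : ℝ) * 2.7182818283 * 1.445 ≤ rexp 1 * rexp 1 * rexp 0.445 := by
      apply mul_le_mul this h4 (by norm_num) (by positivity)
    have h7 : (800 / 81 : ℝ) ≤ (2.7182818283 : ℝ) * 2.7182818283 * 1.445 := by norm_num
    linarith
  have h6 : rexp (-(2890 / 1000) / 2 - 1) = (rexp (1.445 + 1))⁻¹ := by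
    rw [← Real.exp_neg]
    congr 1
    norm_num
  rw [h6]
  have hpos : (0 : ℝ) < 800 / 81 := by norm_num
  calc (rexp (1.445 + 1))⁻¹ ≤ (800 / 81 : ℝ)⁻¹ := inv_anti₀ hpos h5
    _ = 81 / 800 := by norm_num

/-- The key one-dimensional inequality: `u * E (g - u)₊ ≤ 81/800` for every `u > 0`. -/
theorem mul_psi_le (u : ℝ) (hu : 0 < u) : u * psi u ≤ 81 / 800 := by
  by_cases h : u ≤ 17 / 10
  · exact (mul_psi_le_upP u hu.le).trans (upP_le u hu.le h)
  · have h' : 17 / 10 < u := not_le.mp h
    refine (psi_tail u hu).trans (le_trans ?_ exp_tail_le)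
    apply Real.exp_le_exp.mpr
    nlinarith

end Vale.Agent.Lib.P226
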