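import Vale.Agent.Lib.P226.RegimeB
import Vale.Agent.Lib.P226.Numeric

/-!
Every measurable partition of Gaussian space whose functional is at least `9/(8π)` can be replaced
by a measurable partition with at most `10 ^ 63` cells and at least the same functional.
-/

open MeasureTheory ProbabilityTheory Real Set Filter
open scoped RealInnerProductSpace ENNReal

namespace Vale.Agent.Lib.P226

variable {ι : Type*}

lemma prod_le_pow_of_subset [DecidableEq ι] {S W : Finset ι} (hW : W ⊆ S) (f : ι → ℝ)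
    (h0 : ∀ l ∈ S, 0 ≤ f l) (h1 : ∀ l ∈ S, f l ≤ 1) {q : ℝ} (hq : ∀ l ∈ W, f l ≤ q) :
    ∏ l ∈ S, f l ≤ q ^ W.card := by
  rw [← Finset.prod_sdiff hW]
  have h2 : ∏ l ∈ S \ W, f l ≤ 1 :=
    Finset.prod_le_one (fun l hl => h0 l (Finset.mem_sdiff.mp hl).1)
      (fun l hl => h1 l (Finset.mem_sdiff.mp hl).1)
  have h3 : ∏ l ∈ W, f l ≤ q ^ W.card := by
    calc ∏ l ∈ W, f l ≤ ∏ _l ∈ W, q :=
          Finset.prod_le_prod (fun l hl => h0 l (hW hl)) hq
      _ = q ^ W.card := by simp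
  have h4 : 0 ≤ ∏ l ∈ W, f l := Finset.prod_nonneg fun l hl => h0 l (hW hl)
  calc (∏ l ∈ S \ W, f l) * ∏ l ∈ W, f l ≤ 1 * ∏ l ∈ W, f l :=
        mul_le_mul_of_nonneg_right h2 h4
    _ ≤ q ^ W.card := by rw [one_mul]; exact h3

lemma small_of_card {s : ℝ} (hs0 : 0 < s) (hs : (10 : ℝ) ^ 63 * s ^ 2 ≤ 81 / 200) :
    s ≤ rexp (-72) := by
  have h1 : s ^ 2 ≤ rexp (-72) ^ 2 := by
    have h2 : rexp (-72) ^ 2 = (rexp ((144 : ℕ) : ℝ))⁻¹ := by
      rw [← Real.exp_nat_mul, ← Real.exp_neg]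
      congr 1
      push_cast
      ring
    rw [h2]
    have h3 := exp_nat_le 144
    have h4 : s ^ 2 ≤ ((27183 / 10000 : ℝ) ^ 144)⁻¹ := by
      have h5 : s ^ 2 ≤ (81 / 200) / 10 ^ 63 := by
        rw [le_div_iff₀ (by positivity)]
        linarith
      refine h5.trans ?_
      norm_num
    exact h4.trans (inv_anti₀ (Real.exp_pos _) h3)
  exact (pow_le_pow_iff_left₀ hs0.le (Real.exp_pos _).le (by norm_num)).mp h1

variable {E : Type*} [NormedAddCommGroup E] [InnerProductSpace ℝ E] [FiniteDimensional ℝ E]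
  [MeasurableSpace E] [BorelSpace E]

/-- One step of the reduction when the moments are pairwise at an obtuse angle. -/
lemma reduce_step_obtuse [LinearOrder ι] {S : Finset ι} {A : ι → Set E} (hG : Good S A)
    (hT : 9 / (8 * π) ≤ ∑ l ∈ S, ‖mom (A l)‖ ^ 2) (hcard : 10 ^ 63 < S.card)
    (hneg : ∀ a ∈ S, ∀ b ∈ S, a ≠ b → ⟪mom (A a), mom (A b)⟫ < 0) :
    ∃ (S' : Finset ι) (A' : ι → Set E), S'.card < S.card ∧ Good S' A' ∧
      ∑ l ∈ S, ‖mom (A l)‖ ^ 2 ≤ ∑ l ∈ S', ‖mom (A' l)‖ ^ 2 := by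
  classical
  have hone : 1 < S.card := lt_of_le_of_lt (Nat.one_le_pow _ _ (by norm_num)) hcard
  have hS : S.Nonempty := Finset.card_pos.mp (by omega)
  have hne : ∀ l ∈ S, mom (A l) ≠ 0 := by
    intro l hl h0
    obtain ⟨n, hn, hnl⟩ := Finset.exists_mem_ne hone l
    have := hneg l hl n hn hnl.symm
    rw [h0, inner_zero_left] at this
    exact lt_irrefl _ this
  obtain ⟨i, hi, himin⟩ := S.exists_min_image (fun l => ‖mom (A l)‖) hS
  obtain ⟨s, hsd⟩ : ∃ s : ℝ, s = ‖mom (A i)‖ := ⟨_, rfl⟩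
  have hs0 : 0 < s := by
    rw [hsd]
    exact norm_pos_iff.mpr (hne i hi)
  have hsl : ∀ l ∈ S, s ≤ ‖mom (A l)‖ := by
    intro l hl
    rw [hsd]
    exact himin l hl
  -- smallness of `s`
  have hcards : (S.card : ℝ) * s ^ 2 ≤ 81 / 200 := by
    have h1 : ∑ _l ∈ S, s ^ 2 ≤ ∑ l ∈ S, ‖mom (A l)‖ ^ 2 :=
      Finset.sum_le_sum fun l hl => pow_le_pow_left₀ hs0.le (hsl l hl) 2
    rw [Finset.sum_const, nsmul_eq_mul] at h1
    exact h1.trans (sum_sq_le_universal hG)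
  have hsmall : s ≤ rexp (-72) := by
    apply small_of_card hs0
    refine le_trans ?_ hcards
    apply mul_le_mul_of_nonneg_right _ (by positivity)
    exact_mod_cast hcard.le
  obtain ⟨L, hLd⟩ : ∃ L : ℝ, L = -Real.log s := ⟨_, rfl⟩
  have hsL : s = rexp (-L) := by
    rw [hLd, neg_neg, Real.exp_log hs0]
  have hL : 72 ≤ L := by
    have h1 : Real.log s ≤ -72 := by
      rw [← Real.log_exp (-72)]
      exact Real.log_le_log hs0 hsmall
    rw [hLd]
    linarith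
  obtain ⟨ρ, hρd⟩ : ∃ ρ : ℝ, ρ = √(2 * L) := ⟨_, rfl⟩
  have hρ0 : 0 ≤ ρ := by
    rw [hρd]
    exact Real.sqrt_nonneg _
  have hρ2 : ρ ^ 2 = 2 * L := by
    rw [hρd]
    exact Real.sq_sqrt (by linarith)
  have hρ8 : 8 ≤ ρ := by
    by_contra h
    push Not at h
    nlinarith
  have hρpos : 0 < ρ := by linarith
  have hψ : psi ρ ≤ s / 8 := by
    have h1 := psi_tail ρ hρpos
    have h2 : rexp (-(ρ ^ 2 / 2) - 1) ≤ s := by
      rw [hsL]
      apply Real.exp_le_exp.mpr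
      rw [hρ2]
      linarith
    have hpsi0 : 0 ≤ psi ρ := by
      unfold psi
      exact integral_nonneg fun y => le_max_right _ _
    have h3 : 8 * psi ρ ≤ ρ * psi ρ := mul_le_mul_of_nonneg_right hρ8 hpsi0
    linarith
  have hexp72 : rexp (-72) ≤ 1 / 2 ^ 30 := by
    rw [Real.exp_neg, inv_eq_one_div]
    apply one_div_le_one_div_of_le (by norm_num)
    have h1 := exp_nat_ge 72
    norm_num at h1 ⊢
    linarith
  have hs30 : s ≤ 1 / 2 ^ 30 := hsmall.trans hexp72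
  have hρs : ρ * s ^ 3 ≤ 1 := by
    have h1 : L ≤ 1 / s := by
      rw [hLd, ← Real.log_inv, one_div]
      have := Real.log_le_sub_one_of_pos (inv_pos.mpr hs0)
      linarith
    have h2 : ρ ≤ 2 * L := by
      rw [← hρ2]
      nlinarith
    have h3 : ρ ≤ 2 / s := by
      have : 2 * (1 / s) = 2 / s := by ring
      linarith
    have h4 : ρ * s ^ 3 ≤ 2 / s * s ^ 3 := mul_le_mul_of_nonneg_right h3 (by positivity)
    have h5 : 2 / s * s ^ 3 = 2 * s ^ 2 := by
      field_simp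
    rw [h5] at h4
    have h6 : s ^ 2 ≤ 1 / 2 := by
      have : s ≤ 1 / 2 := hs30.trans (by norm_num)
      nlinarith
    linarith
  -- the dichotomy
  obtain ⟨θ, hθd⟩ : ∃ θ : ℝ, θ = 8 * s := ⟨_, rfl⟩
  have hθ1 : θ ≤ 1 / 2 ^ 18 := by
    rw [hθd]
    have : (8 : ℝ) * (1 / 2 ^ 30) ≤ 1 / 2 ^ 18 := by norm_num
    linarith
  set B := S.filter (fun l => θ ≤ ‖mom (A l)‖) with hB
  set U := S.filter (fun l => ¬ θ ≤ ‖mom (A l)‖) with hU
  have hBU : Disjoint B U := Finset.disjoint_filter_filter_not _ _ _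
  have hSBU : S = B ∪ U := (Finset.filter_union_filter_not_eq _ _).symm
  have hiU : i ∈ U := by
    rw [hU, Finset.mem_filter]
    refine ⟨hi, ?_⟩
    rw [← hsd, hθd]
    linarith
  have hUθ : ∀ l ∈ U, ‖mom (A l)‖ < θ := fun l hl => not_le.mp (Finset.mem_filter.mp hl).2
  have hUS : ∀ l ∈ U, l ∈ S := fun l hl => (Finset.mem_filter.mp hl).1
  have hBS : ∀ l ∈ B, l ∈ S := fun l hl => (Finset.mem_filter.mp hl).1
  have hiB : i ∉ B := fun h => Finset.disjoint_left.mp hBU h hiU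
  have hob : ∀ l ∈ S, ∀ n ∈ S, l ≠ n → ⟪mom (A l), mom (A n)⟫ ≤ 0 :=
    fun l hl n hn hln => (hneg l hl n hn hln).le
  by_cases hgood : ∑ l ∈ U, ‖mom (A l)‖ ^ 2 ≤ (1 / 2 ^ 18) ^ 2 ∧
      4096 * θ * (B.card : ℝ) ^ 6 ≤ 1
  · obtain ⟨hEU, hθ2⟩ := hgood
    obtain ⟨A', hA', hle⟩ := regimeB_removal hG hob hBU hSBU hUθ
      (fun l hl => hne l (hUS l hl)) ⟨i, hiU⟩ hT hEU hθ1 hθ2
    refine ⟨B, A', ?_, hA', hle⟩
    apply Finset.card_lt_card
    rw [Finset.ssubset_iff_of_subset hBS]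
    exact ⟨i, hi, hiB⟩
  · -- one smallest cell can be removed
    have hS' : (S.erase i).Nonempty := by
      rw [← Finset.card_pos, Finset.card_erase_of_mem hi]
      omega
    have hQ := slepian (S.erase i) (fun l => mom (A l))
      (fun l hl => hne l (Finset.mem_of_mem_erase hl))
      (fun l hl n hn hln => hob l (Finset.mem_of_mem_erase hl) n (Finset.mem_of_mem_erase hn) hln)
      (fun _ => ρ * s)
    have hfac0 : ∀ l ∈ S.erase i, 0 ≤ normCdf (ρ * s / ‖mom (A l)‖) := fun l _ => normCdf_nonneg _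
    have hfac1 : ∀ l ∈ S.erase i, normCdf (ρ * s / ‖mom (A l)‖) ≤ 1 := fun l _ => normCdf_le_one _
    have hQ2 : ∏ l ∈ S.erase i, normCdf (ρ * s / ‖mom (A l)‖) ≤ s ^ 4 / 16 := by
      by_cases hEU : ∑ l ∈ U, ‖mom (A l)‖ ^ 2 ≤ (1 / 2 ^ 18) ^ 2
      · have hθ2 : 1 < 4096 * (8 * s) * (B.card : ℝ) ^ 6 := by
          have := fun h => hgood ⟨hEU, h⟩
          rw [hθd] at this
          exact not_le.mp this
        have hWS : B ⊆ S.erase i := fun l hl =>
          Finset.mem_erase.mpr ⟨fun h => hiB (h ▸ hl), hBS l hl⟩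
        refine (prod_le_pow_of_subset hWS _ hfac0 hfac1 (q := normCdf (ρ / 8)) ?_).trans
          (numeric_b hL hsL hρ0 hρ2 hθ2)
        intro l hl
        apply normCdf_mono
        have hlθ : 8 * s ≤ ‖mom (A l)‖ := by
          rw [← hθd]
          exact (Finset.mem_filter.mp hl).2
        have hlpos : 0 < ‖mom (A l)‖ := by linarith
        rw [div_le_div_iff₀ hlpos (by norm_num)]
        nlinarith
      · have hEU' : (1 / 2 ^ 18 : ℝ) ^ 2 < ∑ l ∈ U, ‖mom (A l)‖ ^ 2 := not_le.mp hEU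
        have hWS : U.erase i ⊆ S.erase i := fun l hl =>
          Finset.mem_erase.mpr ⟨Finset.ne_of_mem_erase hl, hUS l (Finset.mem_of_mem_erase hl)⟩
        have hcardU : ((U.erase i).card : ℝ) + 1 = U.card := by
          rw [Finset.card_erase_of_mem hiU]
          have : 0 < U.card := Finset.card_pos.mpr ⟨i, hiU⟩
          have h2 : U.card - 1 + 1 = U.card := by omega
          exact_mod_cast h2
        have hbound : ∑ l ∈ U, ‖mom (A l)‖ ^ 2 ≤ ((U.erase i).card + 1) * (64 * s ^ 2) := by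
          rw [hcardU]
          calc ∑ l ∈ U, ‖mom (A l)‖ ^ 2 ≤ ∑ _l ∈ U, (64 * s ^ 2) := by
                apply Finset.sum_le_sum
                intro l hl
                have h1 := (hUθ l hl).le
                rw [hθd] at h1
                have h2 : ‖mom (A l)‖ ^ 2 ≤ (8 * s) ^ 2 := pow_le_pow_left₀ (norm_nonneg _) h1 2
                nlinarith
            _ = U.card * (64 * s ^ 2) := by simp
        refine (prod_le_pow_of_subset hWS _ hfac0 hfac1 (q := normCdf ρ) ?_).trans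
          (numeric_a hL hsL hρ0 hρ2 ?_)
        · intro l hl
          apply normCdf_mono
          have hlS := hUS l (Finset.mem_of_mem_erase hl)
          have h1 := hsl l hlS
          have hlpos : 0 < ‖mom (A l)‖ := by linarith
          rw [div_le_iff₀ hlpos]
          nlinarith
        · have h2 : (1 / 2 ^ 36 : ℝ) = (1 / 2 ^ 18) ^ 2 := by norm_num
          rw [h2]
          linarith
    have hpos : 0 < ∑ l ∈ S.erase i, ‖mom (A l)‖ ^ 2 := by
      obtain ⟨l₀, hl₀⟩ := hS'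
      apply Finset.sum_pos' (fun l _ => by positivity) ⟨l₀, hl₀, ?_⟩
      have := norm_pos_iff.mpr (hne l₀ (Finset.mem_of_mem_erase hl₀))
      positivity
    refine ⟨S.erase i, vor (S.erase i) (fun l => mom (A l)), Finset.card_erase_lt_of_mem hi,
      vor_good _ _ hS', ?_⟩
    exact regimeA_removal hG hS hi hS' hsd.symm hs0 hρpos hψ hQ hQ2 hρs hpos

/-- One step of the reduction. -/
theorem reduce_step [LinearOrder ι] {S : Finset ι} {A : ι → Set E} (hG : Good S A)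
    (hT : 9 / (8 * π) ≤ ∑ l ∈ S, ‖mom (A l)‖ ^ 2) (hcard : 10 ^ 63 < S.card) :
    ∃ (S' : Finset ι) (A' : ι → Set E), S'.card < S.card ∧ Good S' A' ∧
      ∑ l ∈ S, ‖mom (A l)‖ ^ 2 ≤ ∑ l ∈ S', ‖mom (A' l)‖ ^ 2 := by
  by_cases hm : ∃ a ∈ S, ∃ b ∈ S, a ≠ b ∧ 0 ≤ ⟪mom (A a), mom (A b)⟫
  · obtain ⟨a, ha, b, hb, hab, hnn⟩ := hm
    refine ⟨S.erase b, Function.update A a (A a ∪ A b), Finset.card_erase_lt_of_mem hb,
      merge_good hG ha hb hab, ?_⟩
    rw [merge_sum hG ha hb hab]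
    linarith
  · apply reduce_step_obtuse hG hT hcard
    intro a ha b hb hab
    by_contra hc
    exact hm ⟨a, ha, b, hb, hab, not_lt.mp hc⟩

/-- The reduction to at most `10 ^ 63` cells. -/
theorem reduce_all [LinearOrder ι] (n : ℕ) : ∀ (S : Finset ι) (A : ι → Set E), S.card = n →
    Good S A → 9 / (8 * π) ≤ ∑ l ∈ S, ‖mom (A l)‖ ^ 2 →
    ∃ (S' : Finset ι) (A' : ι → Set E), S'.card ≤ 10 ^ 63 ∧ Good S' A' ∧
      ∑ l ∈ S, ‖mom (A l)‖ ^ 2 ≤ ∑ l ∈ S', ‖mom (A' l)‖ ^ 2 := by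
  induction n using Nat.strong_induction_on with
  | _ n ih =>
    intro S A hn hG hT
    by_cases hc : S.card ≤ 10 ^ 63
    · exact ⟨S, A, hc, hG, le_rfl⟩
    · obtain ⟨S₁, A₁, hlt, hG₁, hle⟩ := reduce_step hG hT (not_le.mp hc)
      obtain ⟨S₂, A₂, hc₂, hG₂, hle₂⟩ :=
        ih S₁.card (by omega) S₁ A₁ rfl hG₁ (hT.trans hle)
      exact ⟨S₂, A₂, hc₂, hG₂, hle.trans hle₂⟩

/-- The statement for families of pairwise disjoint sets indexed by `Fin k`. -/
theorem reduce_fin {k : ℕ} (A : Fin k → Set E) (hA : ∀ i, MeasurableSet (A i))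
    (hd : Pairwise (Function.onFun Disjoint A))
    (hF : 9 / (8 * π) ≤ ∑ i, ‖∫ x in A i, x ∂(stdGaussian E)‖ ^ 2) :
    ∃ (m : ℕ) (A' : Fin m → Set E), m ≤ 10 ^ 63 ∧ (∀ i, MeasurableSet (A' i)) ∧
      Pairwise (Function.onFun Disjoint A') ∧ (⋃ i, A' i) = univ ∧
      ∑ i, ‖∫ x in A i, x ∂(stdGaussian E)‖ ^ 2 ≤ ∑ i, ‖∫ x in A' i, x ∂(stdGaussian E)‖ ^ 2 := by
  classical
  set C : Set E := (⋃ i, A i)ᶜ with hC
  have hCm : MeasurableSet C := (MeasurableSet.iUnion hA).compl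
  set A₁ : ℕ → Set E := fun l => if h : l < k then A ⟨l, h⟩ else C with hA₁
  have hA₁lt : ∀ l (h : l < k), A₁ l = A ⟨l, h⟩ := fun l h => by simp [hA₁, h]
  have hA₁ge : ∀ l, ¬ l < k → A₁ l = C := fun l h => by simp [hA₁, h]
  have hG : Good (Finset.range (k + 1)) A₁ := by
    refine ⟨?_, ?_, ?_⟩
    · intro l _
      by_cases h : l < k
      · rw [hA₁lt l h]
        exact hA _
      · rw [hA₁ge l h]
        exact hCm
    · intro l hl n hn hln
      have hl' : l ≤ k := Nat.lt_succ_iff.mp (Finset.mem_range.mp hl)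
      have hn' : n ≤ k := Nat.lt_succ_iff.mp (Finset.mem_range.mp hn)
      by_cases h1 : l < k
      · by_cases h2 : n < k
        · rw [hA₁lt l h1, hA₁lt n h2]
          apply hd
          intro he
          exact hln (congrArg Fin.val he)
        · rw [hA₁lt l h1, hA₁ge n h2, hC]
          exact Set.disjoint_compl_right_iff_subset.mpr (subset_iUnion A ⟨l, h1⟩)
      · by_cases h2 : n < k
        · rw [hA₁ge l h1, hA₁lt n h2, hC]
          exact (Set.disjoint_compl_right_iff_subset.mpr (subset_iUnion A ⟨n, h2⟩)).symm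
        · omega
    · intro x
      by_cases hx : x ∈ C
      · refine ⟨k, Finset.mem_range.mpr (Nat.lt_succ_self k), ?_⟩
        rw [hA₁ge k (lt_irrefl k)]
        exact hx
      · rw [hC, mem_compl_iff, not_not, mem_iUnion] at hx
        obtain ⟨i, hi⟩ := hx
        refine ⟨i, Finset.mem_range.mpr (Nat.lt_succ_of_lt i.2), ?_⟩
        rw [hA₁lt i i.2]
        exact hi
  have hsum : ∑ i, ‖∫ x in A i, x ∂(stdGaussian E)‖ ^ 2 ≤
      ∑ l ∈ Finset.range (k + 1), ‖mom (A₁ l)‖ ^ 2 := by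
    rw [Finset.sum_range_succ, Finset.sum_range]
    have h1 : ∀ i : Fin k, ‖mom (A₁ i)‖ ^ 2 = ‖∫ x in A i, x ∂(stdGaussian E)‖ ^ 2 := by
      intro i
      rw [hA₁lt i i.2]
      rfl
    simp_rw [h1]
    have h2 : 0 ≤ ‖mom (A₁ k)‖ ^ 2 := by positivity
    linarith
  obtain ⟨S', A', hc', hG', hle⟩ := reduce_all _ (Finset.range (k + 1)) A₁ rfl hG (hF.trans hsum)
  set e := S'.equivFin with he
  refine ⟨S'.card, fun i => A' (e.symm i), hc', fun i => hG'.meas _ (e.symm i).2, ?_, ?_, ?_⟩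
  · intro i j hij
    apply hG'.disj _ (e.symm i).2 _ (e.symm j).2
    intro hc
    apply hij
    exact e.symm.injective (Subtype.ext hc)
  · ext x
    simp only [mem_iUnion, mem_univ, iff_true]
    obtain ⟨l, hl, hx⟩ := hG'.cover x
    refine ⟨e ⟨l, hl⟩, ?_⟩
    simpa using hx
  · have h2 : ∑ i, ‖∫ x in A' (e.symm i), x ∂(stdGaussian E)‖ ^ 2 =
        ∑ l ∈ S', ‖mom (A' l)‖ ^ 2 := by
      rw [← Finset.sum_coe_sort S' (fun l => ‖mom (A' l)‖ ^ 2)]
      exact Equiv.sum_comp e.symm (fun l : S' => ‖mom (A' l)‖ ^ 2)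
    rw [h2]
    exact hsum.trans hle

end Vale.Agent.Lib.P226
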