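import Vale.Agent.Lib.P226.Family

/-!
Removal of the smallest cell when there are many cells: the half-space inequality case.
-/

open MeasureTheory ProbabilityTheory Real Set Filter
open scoped RealInnerProductSpace ENNReal

namespace Vale.Agent.Lib.P226

variable {E : Type*} [NormedAddCommGroup E] [InnerProductSpace ℝ E] [FiniteDimensional ℝ E]
  [MeasurableSpace E] [BorelSpace E] {ι : Type*}

lemma measurableSet_all_le (S : Finset ι) (v : ι → E) (R : ℝ) :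
    MeasurableSet {x : E | ∀ l ∈ S, ⟪v l, x⟫ ≤ R} := by
  have : {x : E | ∀ l ∈ S, ⟪v l, x⟫ ≤ R} = ⋂ l ∈ S, {x | ⟪v l, x⟫ ≤ R} := by
    ext x
    simp
  rw [this]
  exact Finset.measurableSet_biInter _ fun l _ => measurableSet_le (by fun_prop) measurable_const

/-- Pointwise comparison used for the removal of one cell. -/
lemma regimeA_pointwise [DecidableEq ι] {S : Finset ι} (hS : S.Nonempty) (z : ι → E) {i l₀ : ι}
    (hS' : (S.erase i).Nonempty) (hl₀ : l₀ ∈ S.erase i) {R lam : ℝ} (hR : 0 ≤ R) (hlam : 0 < lam)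
    (x : E) :
    mx S hS z x ≤ mx (S.erase i) hS' z x + max (⟪z i, x⟫ - R) 0 +
      ({x : E | ∀ l ∈ S.erase i, ⟪z l, x⟫ ≤ R}).indicator (fun _ => R + lam / 2) x +
      ⟪z l₀, x⟫ ^ 2 / (2 * lam) := by
  set m := mx (S.erase i) hS' z x with hm
  have hY0 : 0 ≤ ⟪z l₀, x⟫ ^ 2 / (2 * lam) := by positivity
  have hmax0 : 0 ≤ max (⟪z i, x⟫ - R) 0 := le_max_right _ _
  have hind0 : 0 ≤ ({x : E | ∀ l ∈ S.erase i, ⟪z l, x⟫ ≤ R}).indicator
      (fun _ => R + lam / 2) x := indicator_nonneg (fun _ _ => by positivity) _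
  apply mx_le
  intro l hl
  by_cases hli : l = i
  · subst hli
    by_cases hmR : m ≤ R
    · have hx : x ∈ {x : E | ∀ n ∈ S.erase l, ⟪z n, x⟫ ≤ R} := by
        intro n hn
        exact (le_mx hS' z x hn).trans hmR
      rw [indicator_of_mem hx]
      have h1 : ⟪z l, x⟫ - R ≤ max (⟪z l, x⟫ - R) 0 := le_max_left _ _
      have hY : m ≥ ⟪z l₀, x⟫ := le_mx hS' z x hl₀
      have h2 : -m ≤ lam / 2 + ⟪z l₀, x⟫ ^ 2 / (2 * lam) := by
        rcases le_or_gt 0 m with hm0 | hm0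
        · have : 0 ≤ lam / 2 + ⟪z l₀, x⟫ ^ 2 / (2 * lam) := by positivity
          linarith
        · have h3 : (⟪z l₀, x⟫ + lam) ^ 2 / (2 * lam) ≥ 0 := by positivity
          have h4 : (⟪z l₀, x⟫ + lam) ^ 2 / (2 * lam) =
              ⟪z l₀, x⟫ ^ 2 / (2 * lam) + ⟪z l₀, x⟫ + lam / 2 := by
            field_simp
            ring
          have hY0' : ⟪z l₀, x⟫ < 0 := lt_of_le_of_lt hY hm0
          have h5 : -⟪z l₀, x⟫ ≤ lam / 2 + ⟪z l₀, x⟫ ^ 2 / (2 * lam) := by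
            have h6 : (⟪z l₀, x⟫ - lam) ^ 2 / (2 * lam) ≥ 0 := by positivity
            have h7 : (⟪z l₀, x⟫ - lam) ^ 2 / (2 * lam) =
                ⟪z l₀, x⟫ ^ 2 / (2 * lam) - ⟪z l₀, x⟫ + lam / 2 := by
              field_simp
              ring
            have h8 : 0 ≤ ⟪z l₀, x⟫ ^ 2 / (2 * lam) + ⟪z l₀, x⟫ + lam / 2 := by
              rw [← h4]; exact h3
            linarith
          linarith
      linarith
    · push Not at hmR
      have h1 : ⟪z l, x⟫ - R ≤ max (⟪z l, x⟫ - R) 0 := le_max_left _ _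
      linarith
  · have h1 : ⟪z l, x⟫ ≤ m := le_mx hS' z x (Finset.mem_erase.mpr ⟨hli, hl⟩)
    linarith

lemma regimeA_integral [DecidableEq ι] {S : Finset ι} (hS : S.Nonempty) (z : ι → E) {i l₀ : ι}
    (hS' : (S.erase i).Nonempty) (hl₀ : l₀ ∈ S.erase i) {s ρ Q : ℝ} (hs : ‖z i‖ = s) (hs0 : 0 < s)
    (hρ : 0 < ρ) (hψ : psi ρ ≤ s / 8) (hz0 : ‖z l₀‖ ≤ cG)
    (hQ : (stdGaussian E).real {x | ∀ l ∈ S.erase i, ⟪z l, x⟫ ≤ ρ * s} ≤ Q)
    (hQ2 : Q ≤ s ^ 4 / 16) (hρs : ρ * s ^ 3 ≤ 1) :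
    ∫ x, mx S hS z x ∂(stdGaussian E) ≤ ∫ x, mx (S.erase i) hS' z x ∂(stdGaussian E) + s ^ 2 / 2 := by
  have hcG := cG_pos
  set R := ρ * s with hR
  have hR0 : 0 ≤ R := by positivity
  set lam := 4 * cG / s ^ 2 with hlam
  have hlam0 : 0 < lam := by positivity
  set C : Set E := {x : E | ∀ l ∈ S.erase i, ⟪z l, x⟫ ≤ R} with hC
  have hCm : MeasurableSet C := measurableSet_all_le _ _ _
  have hint1 := integrable_mx hS' z
  have hint2 := integrable_max_inner (z i) R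
  have hint3 : Integrable (C.indicator (fun _ => R + lam / 2)) (stdGaussian E) :=
    (integrable_const _).indicator hCm
  have hint4 : Integrable (fun x : E => ⟪z l₀, x⟫ ^ 2 / (2 * lam)) (stdGaussian E) :=
    (integrable_inner_sq (z l₀)).div_const _
  have i12 : Integrable (fun x => mx (S.erase i) hS' z x + max (⟪z i, x⟫ - R) 0) (stdGaussian E) :=
    hint1.add hint2
  have i123 : Integrable (fun x => mx (S.erase i) hS' z x + max (⟪z i, x⟫ - R) 0 +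
      C.indicator (fun _ => R + lam / 2) x) (stdGaussian E) := i12.add hint3
  have i1234 : Integrable (fun x => mx (S.erase i) hS' z x + max (⟪z i, x⟫ - R) 0 +
      C.indicator (fun _ => R + lam / 2) x + ⟪z l₀, x⟫ ^ 2 / (2 * lam)) (stdGaussian E) :=
    i123.add hint4
  have hmono := integral_mono (integrable_mx hS z) i1234
    (fun x => regimeA_pointwise hS z hS' hl₀ hR0 hlam0 x)
  have hsum : ∫ x, (mx (S.erase i) hS' z x + max (⟪z i, x⟫ - R) 0 + C.indicator (fun _ => R + lam / 2) x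
      + ⟪z l₀, x⟫ ^ 2 / (2 * lam)) ∂(stdGaussian E) =
      ∫ x, mx (S.erase i) hS' z x ∂(stdGaussian E) + ∫ x, max (⟪z i, x⟫ - R) 0 ∂(stdGaussian E) +
      ∫ x, C.indicator (fun _ => R + lam / 2) x ∂(stdGaussian E) +
      ∫ x, ⟪z l₀, x⟫ ^ 2 / (2 * lam) ∂(stdGaussian E) := by
    rw [integral_add i123 hint4, integral_add i12 hint3, integral_add hint1 hint2]
  have hzi : z i ≠ 0 := by
    rw [← norm_pos_iff, hs]
    exact hs0
  have h1 : ∫ x, max (⟪z i, x⟫ - R) 0 ∂(stdGaussian E) ≤ s ^ 2 / 8 := by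
    rw [integral_max_inner (z i) hzi R, hs, hR]
    have : ρ * s / s = ρ := by field_simp
    rw [this]
    nlinarith
  have hP : (stdGaussian E).real C ≤ s ^ 4 / 16 := hQ.trans hQ2
  have h2 : ∫ x, C.indicator (fun _ => R + lam / 2) x ∂(stdGaussian E) ≤ s ^ 2 / 16 + cG * s ^ 2 / 8 := by
    rw [integral_indicator_const _ hCm, smul_eq_mul]
    have h3 : (stdGaussian E).real C * (R + lam / 2) ≤ (s ^ 4 / 16) * (R + lam / 2) :=
      mul_le_mul_of_nonneg_right hP (by positivity)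
    have h4 : (s ^ 4 / 16) * (R + lam / 2) = (ρ * s ^ 3) * (s ^ 2 / 16) + cG * s ^ 2 / 8 := by
      rw [hR, hlam]
      field_simp
      ring
    rw [h4] at h3
    have h5 : (ρ * s ^ 3) * (s ^ 2 / 16) ≤ 1 * (s ^ 2 / 16) :=
      mul_le_mul_of_nonneg_right hρs (by positivity)
    linarith
  have h3 : ∫ x, ⟪z l₀, x⟫ ^ 2 / (2 * lam) ∂(stdGaussian E) ≤ cG * s ^ 2 / 8 := by
    rw [integral_div, integral_inner_sq, div_le_iff₀ (by positivity)]
    have h4 : ‖z l₀‖ ^ 2 ≤ cG ^ 2 := pow_le_pow_left₀ (norm_nonneg _) hz0 2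
    have h5 : cG * s ^ 2 / 8 * (2 * lam) = cG ^ 2 := by
      rw [hlam]
      field_simp
      ring
    rw [h5]
    exact h4
  have hcG2 : cG ≤ 1 / 2 := by
    have := cG_le
    linarith
  have h6 : cG * s ^ 2 / 8 ≤ s ^ 2 / 16 := by
    have : cG * s ^ 2 ≤ (1 / 2) * s ^ 2 := mul_le_mul_of_nonneg_right hcG2 (by positivity)
    linarith
  rw [hsum] at hmono
  have h7 : 0 ≤ s ^ 2 := by positivity
  linarith

/-- Removal of one cell under the smallness condition. -/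
theorem regimeA_removal [LinearOrder ι] {S : Finset ι} {A : ι → Set E} (h : Good S A)
    (hS : S.Nonempty) {i : ι} (hi : i ∈ S) (hS' : (S.erase i).Nonempty) {s ρ Q : ℝ}
    (hs : ‖mom (A i)‖ = s) (hs0 : 0 < s) (hρ : 0 < ρ) (hψ : psi ρ ≤ s / 8)
    (hQ : (stdGaussian E).real {x | ∀ l ∈ S.erase i, ⟪mom (A l), x⟫ ≤ ρ * s} ≤ Q)
    (hQ2 : Q ≤ s ^ 4 / 16) (hρs : ρ * s ^ 3 ≤ 1)
    (hpos : 0 < ∑ l ∈ S.erase i, ‖mom (A l)‖ ^ 2) :
    ∑ l ∈ S, ‖mom (A l)‖ ^ 2 ≤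
      ∑ l ∈ S.erase i, ‖mom (vor (S.erase i) (fun l => mom (A l)) l)‖ ^ 2 := by
  obtain ⟨l₀, hl₀⟩ := hS'
  have hz0 : ‖mom (A l₀)‖ ≤ cG :=
    norm_moment_le_cG (A l₀) (h.meas l₀ (Finset.mem_of_mem_erase hl₀))
  have h1 := regimeA_integral hS (fun l => mom (A l)) ⟨l₀, hl₀⟩ hl₀ hs hs0 hρ hψ hz0 hQ hQ2 hρs
  have h2 := sum_sq_le_integral_mx h hS
  have h3 : ∑ l ∈ S, ‖mom (A l)‖ ^ 2 = s ^ 2 + ∑ l ∈ S.erase i, ‖mom (A l)‖ ^ 2 := by
    rw [← hs]
    exact (Finset.add_sum_erase S (fun l => ‖mom (A l)‖ ^ 2) hi).symm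
  set T := ∑ l ∈ S, ‖mom (A l)‖ ^ 2 with hT
  have hs2 : 0 < s ^ 2 := by positivity
  apply removal ⟨l₀, hl₀⟩ (fun l => mom (A l)) (EE := s ^ 2) (D := s ^ 2 / 2)
  · linarith
  · linarith
  · linarith
  · linarith
  · linarith
  · linarith

end Vale.Agent.Lib.P226
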