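import Vale.Agent.Lib.P226.RegimeA

/-!
Simultaneous removal of all small cells: the two-dimensional small-ball case.
-/

open MeasureTheory ProbabilityTheory Real Set Filter
open scoped RealInnerProductSpace ENNReal

namespace Vale.Agent.Lib.P226

lemma exists_sixth_root {s : ℝ} (hs : 0 < s) : ∃ r : ℝ, 0 < r ∧ r ^ 6 = s := by
  refine ⟨s ^ ((6 : ℕ) : ℝ)⁻¹, by positivity, ?_⟩
  exact Real.rpow_inv_natCast_pow hs.le (by norm_num)

lemma psi_le_of_small {r : ℝ} (h0 : 0 < r) (h1 : r ≤ 1 / 8) : psi (1 / r) ≤ r ^ 6 / 8 := by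
  have ht : 0 < 1 / r := by positivity
  set t := 1 / r with htd
  have hrt : r * t = 1 := by
    rw [htd]
    field_simp
  have h2 := psi_tail t ht
  have h3 : rexp (-(t ^ 2 / 2) - 1) ≤ rexp (-(t ^ 2 / 2)) :=
    Real.exp_le_exp.mpr (by linarith)
  have h4 := Real.pow_div_factorial_le_exp (t ^ 2 / 2) (by positivity) 5
  have h5 : (t ^ 2 / 2) ^ 5 / (Nat.factorial 5 : ℝ) = t ^ 10 / 3840 := by
    norm_num [Nat.factorial]
    ring
  rw [h5] at h4
  have h6 : rexp (-(t ^ 2 / 2)) * (t ^ 10 / 3840) ≤ 1 := by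
    rw [Real.exp_neg]
    have hpos := Real.exp_pos (t ^ 2 / 2)
    rw [inv_mul_le_iff₀ hpos]
    linarith
  have hpsi0 : 0 ≤ psi t := by
    unfold psi
    exact integral_nonneg fun y => le_max_right _ _
  -- multiply out in terms of `r`
  have h7 : t * psi t * (t ^ 10 / 3840) ≤ 1 := by
    have h8 : (0 : ℝ) ≤ t ^ 10 / 3840 := by positivity
    nlinarith [mul_le_mul_of_nonneg_right (h2.trans h3) h8]
  have h9 : psi t = (r * t) ^ 11 * psi t := by
    rw [hrt]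
    ring
  have h10 : (r * t) ^ 11 * psi t = r ^ 11 * (t * psi t * t ^ 10) := by ring
  have h11 : t * psi t * t ^ 10 ≤ 3840 := by linarith
  have h12 : r ^ 5 ≤ (1 / 8 : ℝ) ^ 5 := pow_le_pow_left₀ h0.le h1 5
  calc psi t = r ^ 11 * (t * psi t * t ^ 10) := by rw [← h10]; exact h9
    _ ≤ r ^ 11 * 3840 := mul_le_mul_of_nonneg_left h11 (by positivity)
    _ = r ^ 5 * 3840 * r ^ 6 := by ring
    _ ≤ (1 / 8 : ℝ) ^ 5 * 3840 * r ^ 6 := by
        apply mul_le_mul_of_nonneg_right _ (by positivity)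
        linarith
    _ ≤ r ^ 6 / 8 := by
        have : 0 < r ^ 6 := by positivity
        norm_num
        nlinarith

variable {E : Type*} [NormedAddCommGroup E] [InnerProductSpace ℝ E] [FiniteDimensional ℝ E]
  [MeasurableSpace E] [BorelSpace E] {ι : Type*}

/-- Small-ball estimate for a family of linear forms summing to zero. -/
theorem small_ball_family (B : Finset ι) (v : ι → E) (hsum : ∑ l ∈ B, v l = 0) {a n : ι}
    (ha : a ∈ B) (hn : n ∈ B) (hva : v a ≠ 0) {e : E} (he : ‖e‖ = 1) (hae : ⟪v a, e⟫ = 0) {β : ℝ}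
    (hβ : 0 < β) (hβv : ⟪v n, e⟫ = β) {τ : ℝ} (hτ : 0 ≤ τ) :
    stdGaussian E {x | ∀ l ∈ B, ⟪v l, x⟫ ≤ τ} ≤
      ENNReal.ofReal ((cG * (B.card * τ) / ‖v a‖) * (cG * (B.card * τ) / β)) := by
  have hC : (0 : ℝ) ≤ B.card * τ := by positivity
  refine le_trans (measure_mono ?_) (rect_bound (v a) (v n) e he hva hae β hβ hβv
    (τ - B.card * τ) (τ - B.card * τ) (B.card * τ) hC)
  intro x hx
  have hx' : ∀ l ∈ B, ⟪v l, x⟫ ≤ τ := hx
  have hs : ∑ l ∈ B, (τ - ⟪v l, x⟫) = B.card * τ := by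
    rw [Finset.sum_sub_distrib, ← sum_inner, hsum, inner_zero_left]
    simp
  have hbd : ∀ c ∈ B, τ - ⟪v c, x⟫ ≤ B.card * τ := by
    intro c hc
    rw [← hs]
    exact Finset.single_le_sum (f := fun l => τ - ⟪v l, x⟫) (fun l hl => by
      have := hx' l hl
      linarith) hc
  refine ⟨⟨?_, ?_⟩, ⟨?_, ?_⟩⟩
  · have := hbd a ha
    linarith
  · have := hx' a ha
    linarith
  · have := hbd n hn
    linarith
  · have := hx' n hn
    linarith

omit [FiniteDimensional ℝ E] [MeasurableSpace E] [BorelSpace E] in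
/-- Two well separated vectors in a family having large energy off every line. -/
theorem exists_pair (B : Finset ι) (hB : B.Nonempty) (v : ι → E) {T' : ℝ}
    (hT : ∑ l ∈ B, ‖v l‖ ^ 2 = T') (hpos : 0 < T')
    (hline : ∀ f : E, ‖f‖ = 1 → ∑ l ∈ B, ⟪v l, f⟫ ^ 2 ≤ 1 / π) (hoff : 1 / π < T') :
    ∃ a ∈ B, ∃ n ∈ B, ∃ e : E, ∃ β : ℝ, ‖e‖ = 1 ∧ ⟪v a, e⟫ = 0 ∧ 0 < β ∧ ⟪v n, e⟫ = β ∧
      T' ≤ B.card * ‖v a‖ ^ 2 ∧ T' - 1 / π ≤ B.card * β ^ 2 := by
  classical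
  obtain ⟨a, ha, hamax⟩ := B.exists_max_image (fun l => ‖v l‖ ^ 2) hB
  have hcard : (0 : ℝ) < B.card := by exact_mod_cast hB.card_pos
  have h1 : T' ≤ B.card * ‖v a‖ ^ 2 := by
    rw [← hT]
    calc ∑ l ∈ B, ‖v l‖ ^ 2 ≤ ∑ _l ∈ B, ‖v a‖ ^ 2 := Finset.sum_le_sum hamax
      _ = B.card * ‖v a‖ ^ 2 := by simp
  have hva : v a ≠ 0 := by
    intro h0
    rw [h0, norm_zero] at h1
    norm_num at h1
    linarith
  have hna : 0 < ‖v a‖ := norm_pos_iff.mpr hva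
  obtain ⟨f, hf⟩ : ∃ f : E, f = (1 / ‖v a‖) • v a := ⟨_, rfl⟩
  have hfn : ‖f‖ = 1 := by
    rw [hf, norm_smul, Real.norm_of_nonneg (by positivity)]
    field_simp
  have hg : T' - 1 / π ≤ ∑ l ∈ B, (‖v l‖ ^ 2 - ⟪v l, f⟫ ^ 2) := by
    rw [Finset.sum_sub_distrib, hT]
    have := hline f hfn
    linarith
  have hg2 : ∑ _l ∈ B, (T' - 1 / π) / B.card ≤ ∑ l ∈ B, (‖v l‖ ^ 2 - ⟪v l, f⟫ ^ 2) := by
    have : ∑ _l ∈ B, (T' - 1 / π) / B.card = T' - 1 / π := by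
      simp only [Finset.sum_const, nsmul_eq_mul]
      field_simp
    rw [this]
    exact hg
  obtain ⟨n, hn, hnle⟩ := Finset.exists_le_of_sum_le hB hg2
  have hgn : 0 < ‖v n‖ ^ 2 - ⟪v n, f⟫ ^ 2 :=
    lt_of_lt_of_le (div_pos (by linarith) hcard) hnle
  obtain ⟨p, hp⟩ : ∃ p : E, p = v n - ⟪v n, f⟫ • f := ⟨_, rfl⟩
  have hpn : ‖p‖ ^ 2 = ‖v n‖ ^ 2 - ⟪v n, f⟫ ^ 2 := by
    rw [hp, @norm_sub_sq_real, norm_smul, hfn, inner_smul_right]
    simp only [Real.norm_eq_abs, mul_one, sq_abs]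
    ring
  have hβ : 0 < ‖p‖ := by
    have : 0 < ‖p‖ ^ 2 := by rw [hpn]; exact hgn
    exact norm_pos_iff.mpr (by
      intro h0
      rw [h0, norm_zero] at this
      norm_num at this)
  refine ⟨a, ha, n, hn, (1 / ‖p‖) • p, ‖p‖, ?_, ?_, hβ, ?_, h1, ?_⟩
  · rw [norm_smul, Real.norm_of_nonneg (by positivity)]
    field_simp
  · rw [inner_smul_right, hp, inner_sub_right, inner_smul_right]
    have h2 : ⟪v a, f⟫ = ‖v a‖ := by
      rw [hf, inner_smul_right, real_inner_self_eq_norm_sq]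
      field_simp
    have h3 : ⟪v n, f⟫ * ‖v a‖ = ⟪v a, v n⟫ := by
      rw [hf, inner_smul_right, real_inner_comm]
      field_simp
    rw [h2, h3]
    ring
  · have hvp : ⟪v n, p⟫ = ‖p‖ ^ 2 := by
      rw [hpn, hp, inner_sub_right, inner_smul_right, real_inner_self_eq_norm_sq]
      ring
    rw [inner_smul_right, hvp]
    field_simp
  · have h5 : (T' - 1 / π) / B.card ≤ ‖p‖ ^ 2 := by
      rw [hpn]
      exact hnle
    rw [div_le_iff₀ hcard] at h5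
    linarith

/-- Comparison of a linear form with half of a nonnegative function having small lower tail. -/
lemma G_bound (w : E) {m : E → ℝ} (hmm : Measurable m) (hm0 : ∀ x, 0 ≤ m x)
    (hmi : Integrable m (stdGaussian E)) {P R : ℝ} (hR : 0 < R)
    (hsb : (stdGaussian E).real {x | m x ≤ 2 * R} ≤ P) :
    ∫ x, max (⟪w, x⟫ - m x / 2) 0 ∂(stdGaussian E) ≤
      ∫ x, max (⟪w, x⟫ - R) 0 ∂(stdGaussian E) + R * P := by
  have hCm : MeasurableSet {x : E | m x ≤ 2 * R} := measurableSet_le hmm measurable_const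
  set C : Set E := {x : E | m x ≤ 2 * R} with hC
  have hi1 : Integrable (fun x => max (⟪w, x⟫ - m x / 2) 0) (stdGaussian E) :=
    ((integrable_inner w).sub (hmi.div_const 2)).sup (integrable_const 0)
  have hi2 := integrable_max_inner w R
  have hi3 : Integrable (C.indicator (fun _ => R)) (stdGaussian E) :=
    (integrable_const _).indicator hCm
  have hi23 : Integrable (fun x => max (⟪w, x⟫ - R) 0 + C.indicator (fun _ => R) x)
      (stdGaussian E) := hi2.add hi3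
  have h1 := integral_mono hi1 hi23 (by
    intro x
    simp only
    have hind0 : 0 ≤ C.indicator (fun _ => R) x :=
      indicator_nonneg (fun _ _ => hR.le) _
    have hmax0 : 0 ≤ max (⟪w, x⟫ - R) 0 := le_max_right _ _
    apply max_le _ (by positivity)
    have hm := hm0 x
    by_cases hx : x ∈ C
    · rw [indicator_of_mem hx]
      have := le_max_left (⟪w, x⟫ - R) 0
      linarith
    · have hx' : 2 * R < m x := not_le.mp hx
      have := le_max_left (⟪w, x⟫ - R) 0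
      linarith)
  rw [integral_add hi2 hi3, integral_indicator_const _ hCm, smul_eq_mul] at h1
  have h2 : (stdGaussian E).real C * R ≤ P * R := mul_le_mul_of_nonneg_right hsb hR.le
  linarith

/-- The general tail estimate for a linear form against a small-ball function. -/
lemma G_gen (w : E) {m : E → ℝ} (hmm : Measurable m) (hm0 : ∀ x, 0 ≤ m x)
    (hmi : Integrable m (stdGaussian E)) {b c u : ℝ} (hb : 0 < b) (hc : 1 ≤ c) (hu : 0 < u)
    (hu1 : u ≤ 1 / 2 ^ 18) (hw : ‖w‖ ≤ u / c) (hcond : (48 * (b / c) ^ 3) ^ 2 * u ≤ 1)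
    (hsb : ∀ R : ℝ, 0 < R → (stdGaussian E).real {x | m x ≤ 2 * R} ≤ (3 / 2) * b ^ 3 * (2 * R) ^ 2) :
    ∫ x, max (⟪w, x⟫ - m x / 2) 0 ∂(stdGaussian E) ≤ u ^ 2 / 4 := by
  obtain ⟨r, hr0, hru⟩ := exists_sixth_root hu
  have hc0 : 0 < c := by linarith
  have hr1 : r ≤ 1 / 8 := by
    have h1 : r ^ 6 ≤ (1 / 8 : ℝ) ^ 6 := by
      rw [hru]
      norm_num at hu1 ⊢
      exact hu1
    exact (pow_le_pow_iff_left₀ hr0.le (by norm_num) (by norm_num)).mp h1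
  have hcond2 : 48 * (b / c) ^ 3 * r ^ 3 ≤ 1 := by
    have h1 : (48 * (b / c) ^ 3 * r ^ 3) ^ 2 ≤ 1 ^ 2 := by
      have : (48 * (b / c) ^ 3 * r ^ 3) ^ 2 = (48 * (b / c) ^ 3) ^ 2 * r ^ 6 := by ring
      rw [this, hru]
      simpa using hcond
    exact (pow_le_pow_iff_left₀ (by positivity) (by norm_num) (by norm_num)).mp h1
  set R := r ^ 5 / c with hR
  have hR0 : 0 < R := by positivity
  have h1 := G_bound w hmm hm0 hmi hR0 (hsb R hR0)
  have h2 : ∫ x, max (⟪w, x⟫ - R) 0 ∂(stdGaussian E) ≤ r ^ 12 / 8 := by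
    by_cases hw0 : w = 0
    · subst hw0
      have : (fun x : E => max (⟪(0 : E), x⟫ - R) 0) = fun _ => 0 := by
        ext x
        simp [hR0.le]
      rw [this]
      simp
      positivity
    · have hwpos : 0 < ‖w‖ := norm_pos_iff.mpr hw0
      rw [integral_max_inner w hw0 R]
      have h3 : 1 / r ≤ R / ‖w‖ := by
        rw [le_div_iff₀ hwpos, hR]
        have h4 : 1 / r * ‖w‖ ≤ 1 / r * (u / c) :=
          mul_le_mul_of_nonneg_left hw (by positivity)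
        have h5 : 1 / r * (u / c) = r ^ 5 / c := by
          rw [← hru]
          field_simp
        linarith
      have h4 := (psi_antitone h3).trans (psi_le_of_small hr0 hr1)
      have hpsi0 : 0 ≤ psi (R / ‖w‖) := by
        unfold psi
        exact integral_nonneg fun y => le_max_right _ _
      have h5 : u / c ≤ r ^ 6 := by
        rw [hru]
        exact div_le_self hu.le hc
      calc ‖w‖ * psi (R / ‖w‖) ≤ r ^ 6 * (r ^ 6 / 8) :=
            mul_le_mul (hw.trans h5) h4 hpsi0 (by positivity)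
        _ = r ^ 12 / 8 := by ring
  have h3 : R * ((3 / 2) * b ^ 3 * (2 * R) ^ 2) ≤ r ^ 12 / 8 := by
    have h4 : R * ((3 / 2) * b ^ 3 * (2 * R) ^ 2) = (48 * (b / c) ^ 3 * r ^ 3) * (r ^ 12 / 8) := by
      rw [hR]
      field_simp
      ring
    rw [h4]
    have : 0 ≤ r ^ 12 / 8 := by positivity
    nlinarith
  have h6 : u ^ 2 = r ^ 12 := by
    rw [← hru]
    ring
  rw [h6]
  linarith

omit [FiniteDimensional ℝ E] [MeasurableSpace E] [BorelSpace E] in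
lemma norm_sum_sq_le_of_obtuse (U : Finset ι) (z : ι → E)
    (hob : ∀ l ∈ U, ∀ n ∈ U, l ≠ n → ⟪z l, z n⟫ ≤ 0) :
    ‖∑ l ∈ U, z l‖ ^ 2 ≤ ∑ l ∈ U, ‖z l‖ ^ 2 := by
  classical
  induction U using Finset.induction_on with
  | empty => simp
  | insert a U ha ih =>
    have ih' := ih fun l hl n hn hln =>
      hob l (Finset.mem_insert_of_mem hl) n (Finset.mem_insert_of_mem hn) hln
    rw [Finset.sum_insert ha, Finset.sum_insert ha, @norm_add_sq_real, inner_sum]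
    have h1 : ∑ l ∈ U, ⟪z a, z l⟫ ≤ 0 := Finset.sum_nonpos fun l hl =>
      hob a (Finset.mem_insert_self a U) l (Finset.mem_insert_of_mem hl)
        (fun h => ha (h ▸ hl))
    linarith

omit [FiniteDimensional ℝ E] [MeasurableSpace E] [BorelSpace E] in
/-- Algebra of the shifted family. -/
lemma tilt_algebra (B : Finset ι) (z : ι → E) {eU h : E} {b : ℝ} (hbd : b = B.card) (hb0 : 0 < b)
    (hsumz : ∑ l ∈ B, z l = -eU) (hhd : h = (1 / b) • eU) :
    (∑ l ∈ B, (z l + h) = 0) ∧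
    (∑ l ∈ B, ‖z l + h‖ ^ 2 = ∑ l ∈ B, ‖z l‖ ^ 2 - b * ‖h‖ ^ 2) ∧
    (∀ f : E, ∑ l ∈ B, ⟪z l + h, f⟫ ^ 2 = ∑ l ∈ B, ⟪z l, f⟫ ^ 2 - b * ⟪h, f⟫ ^ 2) ∧
    (b * ‖h‖ ^ 2 = ‖eU‖ ^ 2 / b) := by
  have hbh : b • h = eU := by
    rw [hhd, smul_smul]
    have : b * (1 / b) = 1 := by field_simp
    rw [this, one_smul]
  refine ⟨?_, ?_, ?_, ?_⟩
  · rw [Finset.sum_add_distrib, hsumz, Finset.sum_const, ← Nat.cast_smul_eq_nsmul ℝ, ← hbd, hbh]
    simp
  · simp only [@norm_add_sq_real]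
    rw [Finset.sum_add_distrib, Finset.sum_add_distrib, ← Finset.mul_sum, ← sum_inner, hsumz,
      ← hbh, inner_neg_left, real_inner_smul_left, real_inner_self_eq_norm_sq,
      Finset.sum_const, nsmul_eq_mul, ← hbd]
    ring
  · intro f
    have h4 : ∀ l, ⟪z l + h, f⟫ ^ 2 = ⟪z l, f⟫ ^ 2 + 2 * ⟪h, f⟫ * ⟪z l, f⟫ + ⟪h, f⟫ ^ 2 := by
      intro l
      rw [inner_add_left]
      ring
    simp only [h4]
    rw [Finset.sum_add_distrib, Finset.sum_add_distrib, ← Finset.mul_sum, ← sum_inner, hsumz,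
      ← hbh, inner_neg_left, real_inner_smul_left, Finset.sum_const, nsmul_eq_mul, ← hbd]
    ring
  · have h1 : ‖h‖ = ‖eU‖ / b := by
      rw [hhd, norm_smul, Real.norm_of_nonneg (by positivity)]
      field_simp
    rw [h1]
    field_simp

/-- The small-ball bound for a centered family with energy off every line. -/
lemma balls_of_energy (B : Finset ι) (hB : B.Nonempty) (v : ι → E) (hsumv : ∑ l ∈ B, v l = 0)
    {T' b : ℝ} (hbd : b = B.card) (hT'sum : ∑ l ∈ B, ‖v l‖ ^ 2 = T') (hT'1 : (3579 / 10000 : ℝ) ≤ T')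
    (hoff : (397 / 10000 : ℝ) ≤ T' - 1 / π)
    (hline : ∀ f : E, ‖f‖ = 1 → ∑ l ∈ B, ⟪v l, f⟫ ^ 2 ≤ 1 / π) :
    ∀ τ : ℝ, 0 ≤ τ →
      (stdGaussian E).real {x | ∀ l ∈ B, ⟪v l, x⟫ ≤ τ} ≤ (3 / 2) * b ^ 3 * τ ^ 2 := by
  have hb1 : (1 : ℝ) ≤ b := by
    rw [hbd]
    exact_mod_cast hB.card_pos
  have hb0 : 0 < b := by linarith
  have hpi1 : π < 3.1416 := Real.pi_lt_d4
  have hpi2 : 3.1415 < π := Real.pi_gt_d4
  have hpipos := Real.pi_pos
  obtain ⟨a, ha, n, hn, e, β, he, hae, hβ, hβv, h1a, h1n⟩ :=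
    exists_pair B hB v hT'sum (by linarith) hline (by linarith)
  rw [← hbd] at h1a h1n
  have hva : v a ≠ 0 := by
    intro h0
    rw [h0, norm_zero] at h1a
    norm_num at h1a
    linarith
  have hna : 0 < ‖v a‖ := norm_pos_iff.mpr hva
  have hprod : (119 / 1000 : ℝ) ≤ b * (‖v a‖ * β) := by
    have h1 : (119 / 1000 : ℝ) ^ 2 ≤ (b * (‖v a‖ * β)) ^ 2 := by
      have h2 : (b * (‖v a‖ * β)) ^ 2 = (b * ‖v a‖ ^ 2) * (b * β ^ 2) := by ring
      rw [h2]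
      have h3 : (3579 / 10000 : ℝ) ≤ b * ‖v a‖ ^ 2 := by linarith
      have h4 : (397 / 10000 : ℝ) ≤ b * β ^ 2 := by linarith
      calc (119 / 1000 : ℝ) ^ 2 ≤ (3579 / 10000) * (397 / 10000) := by norm_num
        _ ≤ (b * ‖v a‖ ^ 2) * (b * β ^ 2) := mul_le_mul h3 h4 (by norm_num) (by linarith)
    exact (pow_le_pow_iff_left₀ (by norm_num) (by positivity) (by norm_num)).mp h1
  have hcG2 : cG ^ 2 ≤ 15916 / 100000 := by
    rw [one_div_two_pi_eq, div_le_iff₀ (by positivity)]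
    nlinarith
  intro τ hτ
  have h1 := small_ball_family B v hsumv ha hn hva he hae hβ hβv hτ
  rw [← hbd] at h1
  have h2 : (stdGaussian E).real {x | ∀ l ∈ B, ⟪v l, x⟫ ≤ τ} ≤
      (cG * (b * τ) / ‖v a‖) * (cG * (b * τ) / β) := by
    rw [measureReal_def]
    exact ENNReal.toReal_le_of_le_ofReal (by have := cG_pos; positivity) h1
  refine h2.trans ?_
  have h3 : (cG * (b * τ) / ‖v a‖) * (cG * (b * τ) / β) =
      cG ^ 2 * b ^ 3 * τ ^ 2 / (b * (‖v a‖ * β)) := by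
    field_simp
  rw [h3, div_le_iff₀ (by positivity)]
  have h4 : 0 ≤ b ^ 3 * τ ^ 2 := by positivity
  have h5 : (119 / 1000 : ℝ) * ((3 / 2) * (b ^ 3 * τ ^ 2)) ≤
      (b * (‖v a‖ * β)) * ((3 / 2) * (b ^ 3 * τ ^ 2)) :=
    mul_le_mul_of_nonneg_right hprod (by positivity)
  have h6 : cG ^ 2 * (b ^ 3 * τ ^ 2) ≤ (15916 / 100000) * (b ^ 3 * τ ^ 2) :=
    mul_le_mul_of_nonneg_right hcG2 h4
  nlinarith

omit [FiniteDimensional ℝ E] [MeasurableSpace E] [BorelSpace E] in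
/-- The maximum of a family summing to zero is nonnegative. -/
lemma mx_nonneg_of_sum_zero {B : Finset ι} (hB : B.Nonempty) {v : ι → E}
    (hsumv : ∑ l ∈ B, v l = 0) (x : E) : 0 ≤ mx B hB v x := by
  by_contra hneg
  push Not at hneg
  have h1 : ∀ l ∈ B, ⟪v l, x⟫ < 0 := fun l hl => lt_of_le_of_lt (le_mx hB v x hl) hneg
  have h2 : ∑ l ∈ B, ⟪v l, x⟫ < 0 := Finset.sum_neg h1 hB
  rw [← sum_inner, hsumv, inner_zero_left] at h2
  exact lt_irrefl _ h2

/-- Comparison of the mean maximum of the whole family with that of the shifted family. -/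
lemma regimeB_compare [DecidableEq ι] {S B U : Finset ι} (hSBU : S = B ∪ U) (hSne : S.Nonempty) (hB : B.Nonempty)
    (z : ι → E) (h : E) :
    ∫ x, mx S hSne z x ∂(stdGaussian E) ≤
      ∫ x, mx B hB (fun l => z l + h) x ∂(stdGaussian E) +
        ∫ x, max (⟪h, x⟫ - mx B hB (fun l => z l + h) x / 2) 0 ∂(stdGaussian E) +
        ∑ l ∈ U, ∫ x, max (⟪z l, x⟫ - mx B hB (fun l => z l + h) x / 2) 0 ∂(stdGaussian E) := by
  obtain ⟨m, hmd⟩ : ∃ m : E → ℝ, m = mx B hB (fun l => z l + h) := ⟨_, rfl⟩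
  have hmi : Integrable m (stdGaussian E) := by
    rw [hmd]
    exact integrable_mx hB _
  rw [← hmd]
  have hpt : ∀ x, mx S hSne z x + ⟪h, x⟫ ≤ m x + max (⟪h, x⟫ - m x / 2) 0 +
      ∑ l ∈ U, max (⟪z l, x⟫ - m x / 2) 0 := by
    intro x
    have h1 : mx S hSne z x ≤ m x + max (⟪h, x⟫ - m x / 2) 0 +
        ∑ l ∈ U, max (⟪z l, x⟫ - m x / 2) 0 - ⟪h, x⟫ := by
      apply mx_le
      intro l hl
      have h0 : 0 ≤ max (⟪h, x⟫ - m x / 2) 0 := le_max_right _ _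
      have h0' : 0 ≤ ∑ l ∈ U, max (⟪z l, x⟫ - m x / 2) 0 :=
        Finset.sum_nonneg fun _ _ => le_max_right _ _
      rw [hSBU, Finset.mem_union] at hl
      rcases hl with hl | hl
      · have h2 : ⟪z l + h, x⟫ ≤ m x := by
          rw [hmd]
          exact le_mx hB (fun l => z l + h) x hl
        rw [inner_add_left] at h2
        linarith
      · have h2 : ⟪z l, x⟫ - m x / 2 ≤ ∑ l ∈ U, max (⟪z l, x⟫ - m x / 2) 0 :=
          (le_max_left _ _).trans (Finset.single_le_sum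
            (f := fun l => max (⟪z l, x⟫ - m x / 2) 0) (fun _ _ => le_max_right _ _) hl)
        have h3 := le_max_left (⟪h, x⟫ - m x / 2) 0
        linarith
    linarith
  have hiG : ∀ w : E, Integrable (fun x => max (⟪w, x⟫ - m x / 2) 0) (stdGaussian E) := fun w =>
    ((integrable_inner w).sub (hmi.div_const 2)).sup (integrable_const 0)
  have hi1 : Integrable (fun x => mx S hSne z x + ⟪h, x⟫) (stdGaussian E) :=
    (integrable_mx hSne z).add (integrable_inner h)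
  have hi2 : Integrable (fun x => m x + max (⟪h, x⟫ - m x / 2) 0) (stdGaussian E) :=
    hmi.add (hiG h)
  have hi3 : Integrable (fun x => ∑ l ∈ U, max (⟪z l, x⟫ - m x / 2) 0) (stdGaussian E) :=
    integrable_finset_sum _ fun l _ => hiG (z l)
  have hi23 : Integrable (fun x => m x + max (⟪h, x⟫ - m x / 2) 0 +
      ∑ l ∈ U, max (⟪z l, x⟫ - m x / 2) 0) (stdGaussian E) := hi2.add hi3
  have hint := integral_mono hi1 hi23 hpt
  rw [integral_add (integrable_mx hSne z) (integrable_inner h), integral_inner_eq_zero, add_zero,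
    integral_add hi2 hi3, integral_add hmi (hiG h),
    integral_finset_sum _ fun l _ => hiG (z l)] at hint
  exact hint

/-- Removal of all small cells simultaneously. -/
theorem regimeB_removal [LinearOrder ι] {S : Finset ι} {A : ι → Set E} (hG : Good S A)
    (hob : ∀ l ∈ S, ∀ n ∈ S, l ≠ n → ⟪mom (A l), mom (A n)⟫ ≤ 0)
    {B U : Finset ι} (hBU : Disjoint B U) (hSBU : S = B ∪ U) {θ : ℝ}
    (hUθ : ∀ l ∈ U, ‖mom (A l)‖ < θ) (hU0 : ∀ l ∈ U, mom (A l) ≠ 0) (hUne : U.Nonempty)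
    (hT : 9 / (8 * π) ≤ ∑ l ∈ S, ‖mom (A l)‖ ^ 2)
    (hEU : ∑ l ∈ U, ‖mom (A l)‖ ^ 2 ≤ (1 / 2 ^ 18) ^ 2)
    (hθ1 : θ ≤ 1 / 2 ^ 18) (hθ2 : 4096 * θ * (B.card : ℝ) ^ 6 ≤ 1) :
    ∃ A' : ι → Set E, Good B A' ∧ ∑ l ∈ S, ‖mom (A l)‖ ^ 2 ≤ ∑ l ∈ B, ‖mom (A' l)‖ ^ 2 := by
  classical
  have hsum0 := sum_mom_eq_zero hG
  have hline0 : ∀ f : E, ‖f‖ = 1 → S.Nonempty → ∑ l ∈ S, ⟪mom (A l), f⟫ ^ 2 ≤ 1 / π :=
    fun f hf hS => line_energy hG hS f hf
  have hPhi0 : ∀ hS : S.Nonempty, ∑ l ∈ S, ‖mom (A l)‖ ^ 2 ≤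
      ∫ x, mx S hS (fun l => mom (A l)) x ∂(stdGaussian E) := fun hS => sum_sq_le_integral_mx hG hS
  obtain ⟨z, hz⟩ : ∃ z : ι → E, z = fun l => mom (A l) := ⟨_, rfl⟩
  rw [← hz] at hPhi0
  have hzl : ∀ l, mom (A l) = z l := fun l => by rw [hz]
  simp only [hzl] at hob hU0 hUθ hT hEU hsum0 hline0 hPhi0 ⊢
  obtain ⟨T, hTd⟩ : ∃ T : ℝ, T = ∑ l ∈ S, ‖z l‖ ^ 2 := ⟨_, rfl⟩
  obtain ⟨EU, hEUd⟩ : ∃ EU : ℝ, EU = ∑ l ∈ U, ‖z l‖ ^ 2 := ⟨_, rfl⟩
  obtain ⟨EB, hEBd⟩ : ∃ EB : ℝ, EB = ∑ l ∈ B, ‖z l‖ ^ 2 := ⟨_, rfl⟩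
  rw [← hTd] at hT hPhi0 ⊢
  rw [← hEUd] at hEU
  have hTsum : T = EB + EU := by
    rw [hTd, hEBd, hEUd, hSBU, Finset.sum_union hBU]
  have hpi1 : π < 3.1416 := Real.pi_lt_d4
  have hpi2 : 3.1415 < π := Real.pi_gt_d4
  have hpipos := Real.pi_pos
  have hEU2 : EU ≤ 1 / 2 ^ 36 := by
    refine hEU.trans (le_of_eq ?_)
    norm_num
  have hT1 : (358 / 1000 : ℝ) ≤ T := by
    refine le_trans ?_ hT
    rw [le_div_iff₀ (by positivity)]
    linarith
  have hEUpos : 0 < EU := by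
    rw [hEUd]
    obtain ⟨l₀, hl₀⟩ := hUne
    apply Finset.sum_pos' (fun l _ => by positivity) ⟨l₀, hl₀, ?_⟩
    have := norm_pos_iff.mpr (hU0 l₀ hl₀)
    positivity
  have hEUsmall : EU ≤ 1 / 10 ^ 10 := by
    refine hEU2.trans ?_
    norm_num
  have hB : B.Nonempty := by
    by_contra hne
    rw [Finset.not_nonempty_iff_eq_empty] at hne
    have : EB = 0 := by rw [hEBd, hne]; simp
    linarith
  have hSne : S.Nonempty := by
    rw [hSBU]
    exact hB.mono Finset.subset_union_left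
  have hb1 : (1 : ℝ) ≤ B.card := by exact_mod_cast hB.card_pos
  obtain ⟨b, hbd⟩ : ∃ b : ℝ, b = B.card := ⟨_, rfl⟩
  rw [← hbd] at hb1 hθ2
  have hb0 : 0 < b := by linarith
  obtain ⟨eU, heUd⟩ : ∃ eU : E, eU = ∑ l ∈ U, z l := ⟨_, rfl⟩
  obtain ⟨h, hhd⟩ : ∃ h : E, h = (1 / b) • eU := ⟨_, rfl⟩
  have hsumz : ∑ l ∈ B, z l = -eU := by
    rw [hSBU, Finset.sum_union hBU, ← heUd] at hsum0
    exact eq_neg_of_add_eq_zero_left hsum0
  obtain ⟨hsumv, hvsq, hvline, hhsqe⟩ := tilt_algebra B z hbd hb0 hsumz hhd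
  have heUsq : ‖eU‖ ^ 2 ≤ EU := by
    rw [heUd, hEUd]
    apply norm_sum_sq_le_of_obtuse
    intro l hl n hn hln
    exact hob l (by rw [hSBU]; exact Finset.mem_union_right _ hl) n
      (by rw [hSBU]; exact Finset.mem_union_right _ hn) hln
  have hhsq : b * ‖h‖ ^ 2 ≤ EU := by
    rw [hhsqe]
    exact (div_le_self (by positivity) hb1).trans heUsq
  have hhsq0 : 0 ≤ b * ‖h‖ ^ 2 := by positivity
  obtain ⟨T', hT'd⟩ : ∃ T' : ℝ, T' = EB - b * ‖h‖ ^ 2 := ⟨_, rfl⟩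
  have hT'sum : ∑ l ∈ B, ‖z l + h‖ ^ 2 = T' := by
    rw [hvsq, ← hEBd, hT'd]
  have hT'1 : (3579 / 10000 : ℝ) ≤ T' := by
    rw [hT'd]
    linarith
  have hoff : (397 / 10000 : ℝ) ≤ T' - 1 / π := by
    have h1 : 9 / (8 * π) - 1 / π = 1 / (8 * π) := by
      field_simp
      ring
    have h2 : (3978 / 100000 : ℝ) ≤ 1 / (8 * π) := by
      rw [le_div_iff₀ (by positivity)]
      linarith
    rw [hT'd]
    linarith
  have hline : ∀ f : E, ‖f‖ = 1 → ∑ l ∈ B, ⟪z l + h, f⟫ ^ 2 ≤ 1 / π := by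
    intro f hf
    have h1 := hline0 f hf hSne
    have h2 : ∑ l ∈ B, ⟪z l, f⟫ ^ 2 ≤ ∑ l ∈ S, ⟪z l, f⟫ ^ 2 := by
      rw [hSBU]
      exact Finset.sum_le_sum_of_subset_of_nonneg Finset.subset_union_left
        (fun l _ _ => by positivity)
    rw [hvline]
    have h5 : 0 ≤ b * ⟪h, f⟫ ^ 2 := by positivity
    linarith
  have hballs := balls_of_energy B hB (fun l => z l + h) hsumv hbd hT'sum hT'1 hoff hline
  obtain ⟨m, hmd⟩ : ∃ m : E → ℝ, m = mx B hB (fun l => z l + h) := ⟨_, rfl⟩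
  have hmm : Measurable m := by
    rw [hmd]
    exact measurable_mx hB _
  have hmi : Integrable m (stdGaussian E) := by
    rw [hmd]
    exact integrable_mx hB _
  have hm0 : ∀ x, 0 ≤ m x := by
    intro x
    rw [hmd]
    exact mx_nonneg_of_sum_zero hB hsumv x
  have hsb : ∀ R : ℝ, 0 < R →
      (stdGaussian E).real {x | m x ≤ 2 * R} ≤ (3 / 2) * b ^ 3 * (2 * R) ^ 2 := by
    intro R hR
    refine le_trans (measureReal_mono ?_) (hballs (2 * R) (by positivity))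
    intro x hx l hl
    have h1 : m x ≤ 2 * R := hx
    have h2 : ⟪z l + h, x⟫ ≤ m x := by
      rw [hmd]
      exact le_mx hB (fun l => z l + h) x hl
    exact h2.trans h1
  have hcell : ∀ l ∈ U, ∫ x, max (⟪z l, x⟫ - m x / 2) 0 ∂(stdGaussian E) ≤ ‖z l‖ ^ 2 / 4 := by
    intro l hl
    have hs := norm_pos_iff.mpr (hU0 l hl)
    have hlθ := (hUθ l hl).le
    have hθpos : 0 < θ := by linarith
    apply G_gen (z l) hmm hm0 hmi hb0 le_rfl hs (hlθ.trans hθ1)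
      (by simp) ?_ hsb
    simp only [div_one]
    have h1 : 0 ≤ b ^ 6 := by positivity
    have h2 : (48 * b ^ 3) ^ 2 * ‖z l‖ = 2304 * (‖z l‖ * b ^ 6) := by ring
    rw [h2]
    have h3 : ‖z l‖ * b ^ 6 ≤ θ * b ^ 6 := mul_le_mul_of_nonneg_right hlθ h1
    linarith
  obtain ⟨u, hud⟩ : ∃ u : ℝ, u = √EU := ⟨_, rfl⟩
  have hu0 : 0 < u := by
    rw [hud]
    exact Real.sqrt_pos.mpr hEUpos
  have hu2 : u ^ 2 = EU := by
    rw [hud]
    exact Real.sq_sqrt hEUpos.le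
  have hu1 : u ≤ 1 / 2 ^ 18 := by
    have h1 : u ^ 2 ≤ (1 / 2 ^ 18) ^ 2 := by
      rw [hu2]
      exact hEU
    exact (pow_le_pow_iff_left₀ hu0.le (by norm_num) (by norm_num)).mp h1
  have htilt : ∫ x, max (⟪h, x⟫ - m x / 2) 0 ∂(stdGaussian E) ≤ EU / 4 := by
    rw [← hu2]
    apply G_gen h hmm hm0 hmi hb0 hb1 hu0 hu1 ?_ ?_ hsb
    · rw [hhd, norm_smul, Real.norm_of_nonneg (by positivity)]
      have h1 : ‖eU‖ ≤ u := by
        have h2 : ‖eU‖ ^ 2 ≤ u ^ 2 := by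
          rw [hu2]
          exact heUsq
        exact (pow_le_pow_iff_left₀ (norm_nonneg _) hu0.le (by norm_num)).mp h2
      rw [div_eq_mul_inv u b, one_div, mul_comm]
      exact mul_le_mul_of_nonneg_right h1 (by positivity)
    · have hbb : b / b = 1 := by field_simp
      rw [hbb]
      norm_num
      norm_num at hu1
      linarith
  have hcomp := regimeB_compare hSBU hSne hB z h
  rw [← hmd] at hcomp
  have hsumG : ∑ l ∈ U, ∫ x, max (⟪z l, x⟫ - m x / 2) 0 ∂(stdGaussian E) ≤ EU / 4 := by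
    calc ∑ l ∈ U, ∫ x, max (⟪z l, x⟫ - m x / 2) 0 ∂(stdGaussian E)
        ≤ ∑ l ∈ U, ‖z l‖ ^ 2 / 4 := Finset.sum_le_sum hcell
      _ = EU / 4 := by rw [hEUd, Finset.sum_div]
  have hPhi := hPhi0 hSne
  refine ⟨vor B (fun l => z l + h), vor_good B _ hB, ?_⟩
  apply removal hB (fun l => z l + h) (EE := EU) (D := EU / 2) (by linarith)
  · rw [← hmd]
    linarith
  · linarith
  · linarith
  · rw [hT'sum, hT'd]
    linarith
  · linarith

end Vale.Agent.Lib.P226
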