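import Vale.Agent.Lib.P226.CellBounds

/-!
Splitting a standard Gaussian vector along a unit vector, and the consequences used later:
a one-sided correlation inequality for half-spaces with pairwise non-positive inner products,
and a two-dimensional small-ball estimate.
-/

open MeasureTheory ProbabilityTheory Real Set Filter
open scoped RealInnerProductSpace ENNReal

namespace Vale.Agent.Lib.P226

variable {E : Type*} [NormedAddCommGroup E] [InnerProductSpace ℝ E] [FiniteDimensional ℝ E]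
  [MeasurableSpace E] [BorelSpace E]

/-- Replace the coordinate of `x` along `e` by `g`. -/
noncomputable def splitMap (e : E) (p : ℝ × E) : E := p.2 - ⟪e, p.2⟫ • e + p.1 • e

lemma measurable_splitMap (e : E) : Measurable (splitMap e : ℝ × E → E) := by
  have : Continuous (splitMap e : ℝ × E → E) := by
    unfold splitMap
    fun_prop
  exact this.measurable

theorem map_splitMap (e : E) (he : ‖e‖ = 1) :
    ((gaussianReal 0 1).prod (stdGaussian E)).map (splitMap e) = stdGaussian E := by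
  apply Measure.ext_of_charFun
  ext t
  rw [charFun_stdGaussian, charFun_apply,
    integral_map (measurable_splitMap e).aemeasurable (by fun_prop)]
  set c : ℝ := ⟪e, t⟫ with hc
  set t' : E := t - c • e with ht'
  have hinner : ∀ p : ℝ × E, ⟪splitMap e p, t⟫ = p.1 * c + ⟪p.2, t'⟫ := by
    intro p
    simp only [splitMap, inner_add_left, inner_sub_left, inner_smul_left, ht', inner_sub_right,
      inner_smul_right, conj_trivial, hc]
    have h := real_inner_comm e p.2
    rw [h]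
    ring
  have hfun : ∀ p : ℝ × E, Complex.exp ((⟪splitMap e p, t⟫ : ℝ) * Complex.I) =
      Complex.exp ((p.1 : ℂ) * (c : ℂ) * Complex.I) * Complex.exp ((⟪p.2, t'⟫ : ℝ) * Complex.I) := by
    intro p
    rw [hinner p, ← Complex.exp_add]
    congr 1
    push_cast
    ring
  simp_rw [hfun]
  rw [integral_prod_mul (μ := gaussianReal 0 1) (ν := stdGaussian E)
    (f := fun g : ℝ => Complex.exp ((g : ℂ) * (c : ℂ) * Complex.I))
    (g := fun x : E => Complex.exp ((⟪x, t'⟫ : ℝ) * Complex.I))]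
  have h1 : ∫ g : ℝ, Complex.exp ((g : ℂ) * (c : ℂ) * Complex.I) ∂(gaussianReal 0 1) =
      Complex.exp (-((c : ℂ) ^ 2) / 2) := by
    have := charFun_gaussianReal (μ := 0) (v := 1) c
    rw [charFun_apply_real] at this
    have e1 : (fun g : ℝ => Complex.exp ((g : ℂ) * (c : ℂ) * Complex.I)) =
        fun g : ℝ => Complex.exp ((c : ℂ) * (g : ℂ) * Complex.I) := by
      ext g; congr 1; ring
    rw [e1, this]
    congr 1
    simp
    ring
  have h2 : ∫ x : E, Complex.exp ((⟪x, t'⟫ : ℝ) * Complex.I) ∂(stdGaussian E) =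
      Complex.exp (-((‖t'‖ : ℂ) ^ 2) / 2) := by
    have := charFun_stdGaussian (E := E) t'
    rw [charFun_apply] at this
    rw [this]
  rw [h1, h2, ← Complex.exp_add]
  congr 1
  have hnorm : ‖t'‖ ^ 2 = ‖t‖ ^ 2 - c ^ 2 := by
    rw [ht', @norm_sub_sq_real, norm_smul, he, inner_smul_right, real_inner_comm, ← hc]
    simp only [Real.norm_eq_abs, mul_one, sq_abs]
    ring
  have hnorm' : ((‖t'‖ : ℂ)) ^ 2 = (‖t‖ : ℂ) ^ 2 - (c : ℂ) ^ 2 := by
    exact_mod_cast hnorm
  rw [hnorm']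
  ring

lemma stdGaussian_apply_split (e : E) (he : ‖e‖ = 1) (S : Set E) (hS : MeasurableSet S) :
    stdGaussian E S = ∫⁻ x, gaussianReal 0 1 {g | splitMap e (g, x) ∈ S} ∂(stdGaussian E) := by
  conv_lhs => rw [← map_splitMap e he]
  rw [Measure.map_apply (measurable_splitMap e) hS,
    Measure.prod_apply_symm ((measurable_splitMap e) hS)]
  rfl

lemma harris_real (N : Measure ℝ) [IsProbabilityMeasure N] (L U : Set ℝ)
    (hL : MeasurableSet L) (hU : MeasurableSet U)
    (hLlow : ∀ a b, a ≤ b → b ∈ L → a ∈ L) (hUup : ∀ a b, a ≤ b → a ∈ U → b ∈ U) :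
    N (L ∩ U) ≤ N L * N U := by
  by_cases hne : (L ∩ U).Nonempty
  · obtain ⟨p, hpL, hpU⟩ := hne
    have hsub : Uᶜ ⊆ L := fun q hq => by
      rcases le_total p q with h | h
      · exact absurd (hUup p q h hpU) hq
      · exact hLlow q p h hpL
    have h1 : N.real L = N.real (L ∩ U) + N.real Uᶜ := by
      have h2 : L \ U = Uᶜ := by
        ext q
        constructor
        · exact fun h => h.2
        · exact fun h => ⟨hsub h, h⟩
      rw [← h2, measureReal_inter_add_sdiff (s := L) hU]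
    have h3 : N.real Uᶜ = 1 - N.real U := by
      rw [measureReal_compl hU]
      simp
    have h4 : N.real L ≤ 1 := measureReal_le_one
    have h5 : N.real U ≤ 1 := measureReal_le_one
    have h6 : N.real (L ∩ U) ≤ N.real L * N.real U := by
      rw [h3] at h1
      nlinarith
    rw [← ofReal_measureReal (μ := N) (s := L ∩ U), ← ofReal_measureReal (μ := N) (s := L),
      ← ofReal_measureReal (μ := N) (s := U), ← ENNReal.ofReal_mul measureReal_nonneg]
    exact ENNReal.ofReal_le_ofReal h6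
  · rw [not_nonempty_iff_eq_empty.mp hne]
    simp

lemma inner_splitMap (e w x : E) (g : ℝ) :
    ⟪w, splitMap e (g, x)⟫ = ⟪w, x⟫ - ⟪e, x⟫ * ⟪w, e⟫ + g * ⟪w, e⟫ := by
  simp [splitMap, inner_add_right, inner_sub_right, inner_smul_right]

theorem half_space_corr (w : E) (hw : w ≠ 0) (τ : ℝ) (C : Set E) (hC : MeasurableSet C)
    (hup : ∀ x ∈ C, ∀ t : ℝ, 0 ≤ t → x + t • w ∈ C) :
    stdGaussian E ({x | ⟪w, x⟫ ≤ τ} ∩ C) ≤
      stdGaussian E {x | ⟪w, x⟫ ≤ τ} * stdGaussian E C := by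
  have hs : 0 < ‖w‖ := norm_pos_iff.mpr hw
  set e : E := (1 / ‖w‖) • w with he_def
  have he : ‖e‖ = 1 := by
    rw [he_def, norm_smul, Real.norm_of_nonneg (by positivity)]
    field_simp
  have hwe : ⟪w, e⟫ = ‖w‖ := by
    rw [he_def, inner_smul_right, real_inner_self_eq_norm_sq]
    field_simp
  have hex : ∀ x : E, ⟪e, x⟫ * ‖w‖ = ⟪w, x⟫ := by
    intro x
    rw [he_def, inner_smul_left]
    simp only [conj_trivial]
    field_simp
  have hL' : MeasurableSet {x : E | ⟪w, x⟫ ≤ τ} :=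
    measurableSet_le (by fun_prop) measurable_const
  set Lg : Set ℝ := {g | g * ‖w‖ ≤ τ} with hLg
  have hLgm : MeasurableSet Lg := measurableSet_le (by fun_prop) measurable_const
  have hsplit : ∀ (x : E) (g : ℝ), ⟪w, splitMap e (g, x)⟫ = g * ‖w‖ := by
    intro x g
    rw [inner_splitMap, hwe, hex x]
    ring
  have hmeasg : ∀ x : E, Measurable (fun g : ℝ => splitMap e (g, x)) := fun x =>
    (measurable_splitMap e).comp (measurable_id.prodMk measurable_const)
  have h1 : stdGaussian E {x | ⟪w, x⟫ ≤ τ} = gaussianReal 0 1 Lg := by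
    rw [stdGaussian_apply_split e he _ hL']
    have : ∀ x : E, gaussianReal 0 1 {g | splitMap e (g, x) ∈ {x : E | ⟪w, x⟫ ≤ τ}} =
        gaussianReal 0 1 Lg := by
      intro x
      congr 1
      ext g
      simp only [mem_setOf_eq, hLg]
      rw [hsplit]
    simp_rw [this]
    simp
  rw [h1, stdGaussian_apply_split e he _ (hL'.inter hC),
    stdGaussian_apply_split e he C hC]
  rw [← lintegral_const_mul' _ _ (measure_ne_top _ _)]
  apply lintegral_mono
  intro x
  have hset : {g | splitMap e (g, x) ∈ {x : E | ⟪w, x⟫ ≤ τ} ∩ C} =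
      Lg ∩ {g | splitMap e (g, x) ∈ C} := by
    ext g
    simp only [mem_setOf_eq, mem_inter_iff, hLg]
    rw [hsplit]
  simp only
  rw [hset]
  apply harris_real _ _ _ hLgm ((hmeasg x) hC)
  · intro a b hab hb
    simp only [hLg, mem_setOf_eq] at hb ⊢
    nlinarith
  · intro a b hab ha
    show splitMap e (b, x) ∈ C
    have h2 := hup _ ha ((b - a) / ‖w‖) (by apply div_nonneg; linarith; exact hs.le)
    have h3 : splitMap e (a, x) + ((b - a) / ‖w‖) • w = splitMap e (b, x) := by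
      have hb : ((b - a) / ‖w‖) • w = (b - a) • e := by
        rw [he_def, smul_smul]
        congr 1
        ring
      simp only [splitMap]
      rw [hb, sub_smul]
      abel
    rwa [h3] at h2

/-- The standard normal distribution function. -/
noncomputable def normCdf (t : ℝ) : ℝ := (gaussianReal 0 1).real (Iic t)

lemma stdGaussian_inner_unit (e : E) (he : ‖e‖ = 1) (S : Set ℝ) (hS : MeasurableSet S) :
    stdGaussian E {x | ⟪e, x⟫ ∈ S} = gaussianReal 0 1 S := by
  rw [← map_inner_unit e he, Measure.map_apply (by fun_prop) hS]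
  rfl

lemma stdGaussian_half_space (w : E) (hw : w ≠ 0) (τ : ℝ) :
    (stdGaussian E).real {x | ⟪w, x⟫ ≤ τ} = normCdf (τ / ‖w‖) := by
  have hs : 0 < ‖w‖ := norm_pos_iff.mpr hw
  set e : E := (1 / ‖w‖) • w with he_def
  have he : ‖e‖ = 1 := by
    rw [he_def, norm_smul, Real.norm_of_nonneg (by positivity)]
    field_simp
  have hex : ∀ x : E, ⟪e, x⟫ * ‖w‖ = ⟪w, x⟫ := by
    intro x
    rw [he_def, inner_smul_left]
    simp only [conj_trivial]
    field_simp
  have : {x : E | ⟪w, x⟫ ≤ τ} = {x | ⟪e, x⟫ ∈ Iic (τ / ‖w‖)} := by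
    ext x
    simp only [mem_setOf_eq, mem_Iic]
    rw [le_div_iff₀ hs, hex]
  rw [this, measureReal_def, stdGaussian_inner_unit e he _ measurableSet_Iic]
  rfl

theorem slepian {ι : Type*} (S : Finset ι) (w : ι → E) (hne : ∀ l ∈ S, w l ≠ 0)
    (hob : ∀ l ∈ S, ∀ n ∈ S, l ≠ n → ⟪w l, w n⟫ ≤ 0) (τ : ι → ℝ) :
    (stdGaussian E).real {x | ∀ l ∈ S, ⟪w l, x⟫ ≤ τ l} ≤ ∏ l ∈ S, normCdf (τ l / ‖w l‖) := by
  classical
  induction S using Finset.induction_on with
  | empty => simp [measureReal_def]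
  | insert a S ha ih =>
    have ih' := ih (fun l hl => hne l (Finset.mem_insert_of_mem hl))
      (fun l hl n hn hln => hob l (Finset.mem_insert_of_mem hl) n (Finset.mem_insert_of_mem hn) hln)
    rw [Finset.prod_insert ha]
    have hset : {x : E | ∀ l ∈ insert a S, ⟪w l, x⟫ ≤ τ l} =
        {x | ⟪w a, x⟫ ≤ τ a} ∩ {x | ∀ l ∈ S, ⟪w l, x⟫ ≤ τ l} := by
      ext x
      simp
    have hCm : MeasurableSet {x : E | ∀ l ∈ S, ⟪w l, x⟫ ≤ τ l} := by
      have : {x : E | ∀ l ∈ S, ⟪w l, x⟫ ≤ τ l} = ⋂ l ∈ S, {x | ⟪w l, x⟫ ≤ τ l} := by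
        ext x
        simp
      rw [this]
      exact Finset.measurableSet_biInter _ fun l _ =>
        measurableSet_le (by fun_prop) measurable_const
    have hkey := half_space_corr (w a) (hne a (Finset.mem_insert_self a S)) (τ a)
      {x | ∀ l ∈ S, ⟪w l, x⟫ ≤ τ l} hCm (by
        intro x hx t ht l hl
        have hlne : a ≠ l := fun h => ha (h ▸ hl)
        have h1 := hob a (Finset.mem_insert_self a S) l (Finset.mem_insert_of_mem hl) hlne
        have h2 := hx l hl
        rw [inner_add_right, inner_smul_right, real_inner_comm (w a) (w l)]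
        nlinarith)
    rw [hset, ← stdGaussian_half_space (w a) (hne a (Finset.mem_insert_self a S)) (τ a)]
    have h3 : (stdGaussian E).real ({x | ⟪w a, x⟫ ≤ τ a} ∩ {x | ∀ l ∈ S, ⟪w l, x⟫ ≤ τ l}) ≤
        (stdGaussian E).real {x | ⟪w a, x⟫ ≤ τ a} *
          (stdGaussian E).real {x | ∀ l ∈ S, ⟪w l, x⟫ ≤ τ l} := by
      simp only [measureReal_def]
      rw [← ENNReal.toReal_mul]
      exact ENNReal.toReal_mono (ENNReal.mul_ne_top (measure_ne_top _ _) (measure_ne_top _ _)) hkey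
    exact h3.trans (mul_le_mul_of_nonneg_left ih' measureReal_nonneg)

lemma gauss_Icc_le (a b : ℝ) (h : a ≤ b) :
    gaussianReal 0 1 (Icc a b) ≤ ENNReal.ofReal (cG * (b - a)) := by
  rw [gaussianReal_apply 0 (by norm_num)]
  have hle : ∀ y ∈ Icc a b, gaussianPDF 0 1 y ≤ ENNReal.ofReal cG := by
    intro y _
    rw [gaussianPDF, gaussianPDFReal_01]
    apply ENNReal.ofReal_le_ofReal
    have h1 : rexp (-(y ^ 2 / 2)) ≤ 1 := Real.exp_le_one_iff.mpr (by nlinarith [sq_nonneg y])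
    nlinarith [cG_pos]
  calc ∫⁻ y in Icc a b, gaussianPDF 0 1 y
      ≤ ∫⁻ _ in Icc a b, ENNReal.ofReal cG :=
        setLIntegral_mono measurable_const hle
    _ = ENNReal.ofReal (cG * (b - a)) := by
        rw [setLIntegral_const, Real.volume_Icc, ENNReal.ofReal_mul cG_pos.le]

lemma half_strip_le (u : E) (hu : u ≠ 0) (a C : ℝ) (hC : 0 ≤ C) :
    stdGaussian E {x | ⟪u, x⟫ ∈ Icc a (a + C)} ≤ ENNReal.ofReal (cG * C / ‖u‖) := by
  have hs : 0 < ‖u‖ := norm_pos_iff.mpr hu
  set e : E := (1 / ‖u‖) • u with he_def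
  have he : ‖e‖ = 1 := by
    rw [he_def, norm_smul, Real.norm_of_nonneg (by positivity)]
    field_simp
  have hex : ∀ x : E, ⟪e, x⟫ * ‖u‖ = ⟪u, x⟫ := by
    intro x
    rw [he_def, inner_smul_left]
    simp only [conj_trivial]
    field_simp
  have : {x : E | ⟪u, x⟫ ∈ Icc a (a + C)} = {x | ⟪e, x⟫ ∈ Icc (a / ‖u‖) ((a + C) / ‖u‖)} := by
    ext x
    simp only [mem_setOf_eq, mem_Icc]
    rw [div_le_iff₀ hs, le_div_iff₀ hs, hex]
  rw [this, stdGaussian_inner_unit e he _ measurableSet_Icc]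
  refine (gauss_Icc_le _ _ ?_).trans (ENNReal.ofReal_le_ofReal (le_of_eq ?_))
  · apply div_le_div_of_nonneg_right (by linarith) hs.le
  · field_simp
    ring

/-- Rectangle estimate for two Gaussian linear forms. -/
theorem rect_bound (u v e : E) (he : ‖e‖ = 1) (hu : u ≠ 0) (hue : ⟪u, e⟫ = 0) (β : ℝ) (hβ : 0 < β)
    (hβv : ⟪v, e⟫ = β) (a₁ a₂ C : ℝ) (hC : 0 ≤ C) :
    stdGaussian E {x | ⟪u, x⟫ ∈ Icc a₁ (a₁ + C) ∧ ⟪v, x⟫ ∈ Icc a₂ (a₂ + C)} ≤
      ENNReal.ofReal ((cG * C / ‖u‖) * (cG * C / β)) := by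
  have hs : 0 < ‖u‖ := norm_pos_iff.mpr hu
  have hS : MeasurableSet {x : E | ⟪u, x⟫ ∈ Icc a₁ (a₁ + C) ∧ ⟪v, x⟫ ∈ Icc a₂ (a₂ + C)} := by
    have h1 : MeasurableSet {x : E | ⟪u, x⟫ ∈ Icc a₁ (a₁ + C)} :=
      (by fun_prop : Measurable fun x : E => ⟪u, x⟫) measurableSet_Icc
    have h2 : MeasurableSet {x : E | ⟪v, x⟫ ∈ Icc a₂ (a₂ + C)} :=
      (by fun_prop : Measurable fun x : E => ⟪v, x⟫) measurableSet_Icc
    exact h1.inter h2
  have hS1 : MeasurableSet {x : E | ⟪u, x⟫ ∈ Icc a₁ (a₁ + C)} :=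
    (by fun_prop : Measurable fun x : E => ⟪u, x⟫) measurableSet_Icc
  rw [stdGaussian_apply_split e he _ hS]
  have hpt : ∀ x : E, gaussianReal 0 1
      {g | splitMap e (g, x) ∈ {x : E | ⟪u, x⟫ ∈ Icc a₁ (a₁ + C) ∧ ⟪v, x⟫ ∈ Icc a₂ (a₂ + C)}} ≤
      ({x : E | ⟪u, x⟫ ∈ Icc a₁ (a₁ + C)}).indicator (fun _ => ENNReal.ofReal (cG * C / β)) x := by
    intro x
    by_cases hx : ⟪u, x⟫ ∈ Icc a₁ (a₁ + C)
    · rw [indicator_of_mem (by exact hx)]
      set c : ℝ := ⟪v, x⟫ - ⟪e, x⟫ * β with hc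
      have hsub : {g | splitMap e (g, x) ∈
          {x : E | ⟪u, x⟫ ∈ Icc a₁ (a₁ + C) ∧ ⟪v, x⟫ ∈ Icc a₂ (a₂ + C)}} ⊆
          Icc ((a₂ - c) / β) ((a₂ + C - c) / β) := by
        intro g hg
        have hg2 : ⟪v, splitMap e (g, x)⟫ ∈ Icc a₂ (a₂ + C) := hg.2
        rw [inner_splitMap, hβv] at hg2
        simp only [mem_Icc] at hg2 ⊢
        rw [div_le_iff₀ hβ, le_div_iff₀ hβ]
        constructor <;> nlinarith [hg2.1, hg2.2]
      refine (measure_mono hsub).trans ((gauss_Icc_le _ _ ?_).trans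
        (ENNReal.ofReal_le_ofReal (le_of_eq ?_)))
      · apply div_le_div_of_nonneg_right (by linarith) hβ.le
      · field_simp
        ring
    · rw [indicator_of_notMem (by exact hx)]
      have : {g | splitMap e (g, x) ∈
          {x : E | ⟪u, x⟫ ∈ Icc a₁ (a₁ + C) ∧ ⟪v, x⟫ ∈ Icc a₂ (a₂ + C)}} = ∅ := by
        ext g
        simp only [mem_setOf_eq, mem_empty_iff_false, iff_false, not_and]
        intro hg
        rw [inner_splitMap, hue] at hg
        apply absurd _ hx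
        simpa using hg
      rw [this]
      simp
  calc ∫⁻ x, gaussianReal 0 1
        {g | splitMap e (g, x) ∈ {x : E | ⟪u, x⟫ ∈ Icc a₁ (a₁ + C) ∧ ⟪v, x⟫ ∈ Icc a₂ (a₂ + C)}}
          ∂(stdGaussian E)
      ≤ ∫⁻ x, ({x : E | ⟪u, x⟫ ∈ Icc a₁ (a₁ + C)}).indicator
          (fun _ => ENNReal.ofReal (cG * C / β)) x ∂(stdGaussian E) := lintegral_mono hpt
    _ = ENNReal.ofReal (cG * C / β) * stdGaussian E {x : E | ⟪u, x⟫ ∈ Icc a₁ (a₁ + C)} := by
        rw [lintegral_indicator hS1, setLIntegral_const]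
    _ ≤ ENNReal.ofReal (cG * C / β) * ENNReal.ofReal (cG * C / ‖u‖) := by
        gcongr
        exact half_strip_le u hu a₁ C hC
    _ = ENNReal.ofReal ((cG * C / ‖u‖) * (cG * C / β)) := by
        rw [← ENNReal.ofReal_mul (by have := cG_pos; positivity), mul_comm]

end Vale.Agent.Lib.P226
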